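import Mathlib
import Vale.Agent.P109.H462.Tower

/-!
# P109, block [A] (helper424), file 1: decoded words, cells, near pairs

`j0` is the base of a stretch.  A name of length `2 ^ (j0 + i)` is decoded cell by cell: each of
its `2 ^ i` cells of length `2 ^ j0` is replaced by a nearest word of level `j0`.  The result lives
in `VT (s.W j0) i` (binary trees of depth `i`).  `near i w v` : the word `w` of level `j0 + i` and
the decoded name `v` agree (up to few mismatches) in all but a fraction `1/20` of the cells.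
-/

open Finset

namespace Vale.Agent.P109.A424

open H462 H462.Sched

/-- Binary trees of depth `i` with leaves in `U`. -/
def VT (U : Type) : ℕ → Type
  | 0 => U
  | i + 1 => VT U i × VT U i

noncomputable instance VT.fintype (U : Type) [Fintype U] : ∀ i, Fintype (VT U i)
  | 0 => inferInstanceAs (Fintype U)
  | i + 1 => by
    haveI := VT.fintype U i
    exact inferInstanceAs (Fintype (VT U i × VT U i))

theorem VT.sum_succ {U : Type} [Fintype U] {M : Type*} [AddCommMonoid M] (i : ℕ)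
    (f : VT U (i + 1) → M) :
    ∑ v, f v = ∑ a : VT U i, ∑ b : VT U i, f (a, b) :=
  Fintype.sum_prod_type (α₁ := VT U i) (α₂ := VT U i) f

variable {s : Sched}

section dec

variable (t : s.Rels) (j0 : ℕ)

/-- A nearest codeword, for a given spelling of the codewords. -/
noncomputable def decG (sp : s.W j0 → Fin (2 ^ j0) → s.W 0) (u : Fin (2 ^ j0) → s.W 0) : s.W j0 :=
  Classical.choose (Finset.exists_min_image univ (fun w : s.W j0 => mis (sp w) u)
    ⟨⟨0, by positivity⟩, mem_univ _⟩)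

/-- A nearest codeword of level `j0`. -/
noncomputable def dec (u : Fin (2 ^ j0) → s.W 0) : s.W j0 := decG j0 (s.spell t j0) u

theorem dec_le (u : Fin (2 ^ j0) → s.W 0) (w : s.W j0) :
    mis (s.spell t j0 (dec t j0 u)) u ≤ mis (s.spell t j0 w) u :=
  (Classical.choose_spec (Finset.exists_min_image univ
    (fun w : s.W j0 => mis (s.spell t j0 w) u) ⟨⟨0, by positivity⟩, mem_univ _⟩)).2 w (mem_univ _)

theorem mis_comm {n : ℕ} {A : Type*} [DecidableEq A] (u v : Fin n → A) : mis u v = mis v u := by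
  unfold mis
  congr 1
  ext i
  simp [ne_comm]

theorem mis_triangle {n : ℕ} {A : Type*} [DecidableEq A] (u v w : Fin n → A) :
    mis u w ≤ mis u v + mis v w := by
  unfold mis
  refine le_trans (card_le_card ?_) (card_union_le _ _)
  intro i
  simp only [mem_filter, mem_univ, true_and, mem_union]
  intro h
  by_contra hc
  push Not at hc
  exact h (hc.1.trans hc.2)

theorem mis_dec_le (u : Fin (2 ^ j0) → s.W 0) (w : s.W j0) :
    mis (s.spell t j0 w) (s.spell t j0 (dec t j0 u)) ≤ 2 * mis (s.spell t j0 w) u := by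
  have h1 := mis_triangle (s.spell t j0 w) u (s.spell t j0 (dec t j0 u))
  have h2 := dec_le t j0 u w
  rw [mis_comm u] at h1
  omega

/-- Decoding of a (one-sided infinite) name, cell by cell. -/
noncomputable def decAt : (i : ℕ) → (ℕ → s.W 0) → VT (s.W j0) i
  | 0, u => dec t j0 (fun r => u r)
  | i + 1, u => (decAt i u, decAt i (fun k => u (2 ^ (j0 + i) + k)))

/-- number of bad cells -/
noncomputable def bad (m0 : ℕ) : (i : ℕ) → s.W (j0 + i) → VT (s.W j0) i → ℕ
  | 0, w, v => if mis (s.spell t j0 w) (s.spell t j0 v) ≤ m0 then 0 else 1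
  | i + 1, w, v => bad m0 i (s.left (j0 + i) w) v.1 + bad m0 i (s.rightOf (j0 + i) (t (j0 + i)) w) v.2

/-- the word `w` is near the decoded name `v` -/
def near (m0 i : ℕ) (w : s.W (j0 + i)) (v : VT (s.W j0) i) : Prop :=
  20 * bad t j0 m0 i w v ≤ 2 ^ i

noncomputable instance (m0 i : ℕ) (w : s.W (j0 + i)) (v : VT (s.W j0) i) :
    Decidable (near t j0 m0 i w v) := inferInstanceAs (Decidable (_ ≤ _))

variable {t j0}

theorem decAt_congr (i : ℕ) {u u' : ℕ → s.W 0} (h : ∀ k < 2 ^ (j0 + i), u k = u' k) :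
    decAt t j0 i u = decAt t j0 i u' := by
  induction i generalizing u u' with
  | zero =>
    unfold decAt
    congr 1
    funext r
    exact h r r.2
  | succ i ih =>
    unfold decAt
    have hp : 2 ^ (j0 + (i + 1)) = 2 ^ (j0 + i) + 2 ^ (j0 + i) := by
      rw [← add_assoc, pow_succ]; ring
    rw [ih (u := u) (u' := u') (fun k hk => h k (by omega)),
      ih (u := fun k => u (2 ^ (j0 + i) + k)) (u' := fun k => u' (2 ^ (j0 + i) + k))
        (fun k hk => h _ (by omega))]

theorem dec_congr_rels {t t' : s.Rels} {j0 : ℕ} (h : ∀ i < j0, t i = t' i) :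
    dec t j0 = dec t' j0 := by
  unfold dec
  rw [spell_congr h]

theorem decAt_congr_rels {t t' : s.Rels} {j0 : ℕ} (h : ∀ i < j0, t i = t' i) (i : ℕ) :
    decAt t j0 i = decAt t' j0 i := by
  induction i with
  | zero =>
    funext u
    unfold decAt
    rw [dec_congr_rels h]
  | succ i ih =>
    funext u
    unfold decAt
    rw [ih]

theorem bad_congr_rels {t t' : s.Rels} {j0 : ℕ} (m0 i : ℕ) (h : ∀ l < j0 + i, t l = t' l) :
    bad t j0 m0 i = bad t' j0 m0 i := by
  induction i with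
  | zero =>
    funext w v
    unfold bad
    rw [spell_congr (t := t) (t' := t') (j := j0) (fun l hl => h l (by omega))]
  | succ i ih =>
    funext w v
    unfold bad
    rw [ih (fun l hl => h l (by omega)), h (j0 + i) (by omega)]

theorem near_congr_rels {t t' : s.Rels} {j0 : ℕ} (m0 i : ℕ) (h : ∀ l < j0 + i, t l = t' l) :
    near t j0 m0 i = near t' j0 m0 i := by
  funext w v
  unfold near
  rw [bad_congr_rels m0 i h]

theorem sum_pow_bad (m0 : ℕ) {x ℓ : ℝ} (hx : 0 ≤ x) (hℓ : 0 ≤ ℓ)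
    (hlist : ∀ w : s.W j0, ((univ.filter (fun v : s.W j0 =>
      mis (s.spell t j0 w) (s.spell t j0 v) ≤ m0)).card : ℝ) ≤ ℓ) (i : ℕ) (w : s.W (j0 + i)) :
    ∑ v : VT (s.W j0) i, x ^ bad t j0 m0 i w v ≤ (ℓ + x * 2 ^ s.κ j0) ^ 2 ^ i := by
  induction i with
  | zero =>
    have h1 : ∀ v : s.W j0, x ^ bad t j0 m0 0 w v ≤
        (if mis (s.spell t j0 w) (s.spell t j0 v) ≤ m0 then 1 else 0) + x := by
      intro v
      have : bad t j0 m0 0 w v = if mis (s.spell t j0 w) (s.spell t j0 v) ≤ m0 then 0 else 1 := rfl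
      rw [this]
      split_ifs
      · simp [hx]
      · simp
    calc ∑ v : VT (s.W j0) 0, x ^ bad t j0 m0 0 w v
        = ∑ v : s.W j0, x ^ bad t j0 m0 0 w v := rfl
      _ ≤ ∑ v : s.W j0, ((if mis (s.spell t j0 w) (s.spell t j0 v) ≤ m0 then 1 else 0) + x) :=
          Finset.sum_le_sum fun v _ => h1 v
      _ = ((univ.filter (fun v : s.W j0 =>
            mis (s.spell t j0 w) (s.spell t j0 v) ≤ m0)).card : ℝ) + 2 ^ s.κ j0 * x := by
          rw [Finset.sum_add_distrib, Finset.sum_boole, Finset.sum_const, Finset.card_univ,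
            Fintype.card_fin, nsmul_eq_mul]
          push_cast
          rfl
      _ ≤ (ℓ + x * 2 ^ s.κ j0) ^ 2 ^ 0 := by
          have := hlist w
          simp only [pow_zero, pow_one]
          linarith
  | succ i ih =>
    rw [VT.sum_succ]
    calc ∑ a : VT (s.W j0) i, ∑ b : VT (s.W j0) i, x ^ bad t j0 m0 (i + 1) w (a, b)
        = ∑ a : VT (s.W j0) i, ∑ b : VT (s.W j0) i, x ^ bad t j0 m0 i (s.left (j0 + i) w) a *
            x ^ bad t j0 m0 i (s.rightOf (j0 + i) (t (j0 + i)) w) b := by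
          refine Finset.sum_congr rfl fun a _ => Finset.sum_congr rfl fun b _ => ?_
          rw [← pow_add]
          rfl
      _ = (∑ a : VT (s.W j0) i, x ^ bad t j0 m0 i (s.left (j0 + i) w) a) *
            ∑ b : VT (s.W j0) i, x ^ bad t j0 m0 i (s.rightOf (j0 + i) (t (j0 + i)) w) b := by
          rw [Finset.sum_mul_sum]
      _ ≤ (ℓ + x * 2 ^ s.κ j0) ^ 2 ^ i * (ℓ + x * 2 ^ s.κ j0) ^ 2 ^ i :=
          mul_le_mul (ih _) (ih _) (Finset.sum_nonneg fun _ _ => by positivity) (by positivity)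
      _ = (ℓ + x * 2 ^ s.κ j0) ^ 2 ^ (i + 1) := by
          rw [← pow_add]
          congr 1
          rw [pow_succ]; ring

/-- Number of decoded names near a word. -/
theorem card_near_le (m0 : ℕ) {ℓ : ℝ} (hℓ : 0 ≤ ℓ)
    (hlist : ∀ w : s.W j0, ((univ.filter (fun v : s.W j0 =>
      mis (s.spell t j0 w) (s.spell t j0 v) ≤ m0)).card : ℝ) ≤ ℓ) (i : ℕ) (w : s.W (j0 + i)) :
    ((univ.filter (fun v : VT (s.W j0) i => near t j0 m0 i w v)).card : ℝ) ≤
      (2 : ℝ) ^ ((s.κ j0 : ℝ) * 2 ^ i / 20) * (ℓ + 1) ^ 2 ^ i := by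
  have hx : (0 : ℝ) ≤ ((2 : ℝ) ^ s.κ j0)⁻¹ := by positivity
  have h1 := sum_pow_bad (t := t) (j0 := j0) m0 hx hℓ hlist i w
  rw [inv_mul_cancel₀ (by positivity)] at h1
  have h2 : ∀ v : VT (s.W j0) i, near t j0 m0 i w v →
      1 ≤ (2 : ℝ) ^ ((s.κ j0 : ℝ) * 2 ^ i / 20) * (((2 : ℝ) ^ s.κ j0)⁻¹) ^ bad t j0 m0 i w v := by
    intro v hv
    have hb : ((bad t j0 m0 i w v : ℕ) : ℝ) ≤ 2 ^ i / 20 := by
      have : (20 : ℝ) * (bad t j0 m0 i w v : ℕ) ≤ 2 ^ i := by exact_mod_cast hv
      linarith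
    have h3 : (2 : ℝ) ^ (s.κ j0 * bad t j0 m0 i w v) =
        (2 : ℝ) ^ ((s.κ j0 * bad t j0 m0 i w v : ℕ) : ℝ) := (Real.rpow_natCast _ _).symm
    rw [inv_pow, ← pow_mul, h3, ← div_eq_mul_inv, ← Real.rpow_sub (by norm_num)]
    apply Real.one_le_rpow (by norm_num)
    push_cast
    have hk : (0 : ℝ) ≤ s.κ j0 := by positivity
    nlinarith [mul_le_mul_of_nonneg_left hb hk]
  calc ((univ.filter (fun v : VT (s.W j0) i => near t j0 m0 i w v)).card : ℝ)
      = ∑ v : VT (s.W j0) i, (if near t j0 m0 i w v then (1 : ℝ) else 0) := by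
        rw [Finset.sum_boole]
    _ ≤ ∑ v : VT (s.W j0) i, (2 : ℝ) ^ ((s.κ j0 : ℝ) * 2 ^ i / 20) *
          (((2 : ℝ) ^ s.κ j0)⁻¹) ^ bad t j0 m0 i w v := by
        refine Finset.sum_le_sum fun v _ => ?_
        split_ifs with hv
        · exact h2 v hv
        · positivity
    _ ≤ _ := by
        rw [← Finset.mul_sum]
        exact mul_le_mul_of_nonneg_left h1 (by positivity)

end dec

end Vale.Agent.P109.A424
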