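import Vale.Agent.P109.A424.Fam

/-!
# P109, block [A] (helper874): the dependent families of weights (oracle) for the choice of the
relations, and what one gets from the choice
-/

open Finset MeasureTheory
open scoped ENNReal

namespace Vale.Agent.P109.A424

open H462 H462.Sched A874

/-- A finite set as a finset (empty if the set is infinite). -/
noncomputable def toF {β : Type*} (A : Set β) : Finset β := by
  classical
  exact if h : A.Finite then h.toFinset else ∅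

theorem mem_toF {β : Type*} {A : Set β} (h : A.Finite) {x : β} : x ∈ toF A ↔ x ∈ A := by
  classical
  unfold toF
  rw [dif_pos h, Set.Finite.mem_toFinset]

theorem card_toF {β : Type*} {A : Set β} (h : A.Finite) : (toF A).card = A.ncard := by
  classical
  unfold toF
  rw [dif_pos h, Set.ncard_eq_toFinset_card A h]

variable {s : Sched}

theorem listProp_congr {t t' : s.Rels} {j : ℕ} (h : ∀ l < j, t l = t' l) (η : ℝ) :
    s.ListProp t j η ↔ s.ListProp t' j η := by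
  unfold Sched.ListProp
  rw [spell_congr h]

/-- The numerical conditions at level `j` with stretch base `j0`. -/
def NumCond (s : Sched) (j0 j : ℕ) : Prop :=
  s.κ j0 * 2 ^ (j - j0) ≤ 2 * s.κ j ∧ 100 ≤ s.κ j0 ∧ 1000 * s.lam j ≤ s.κ j ∧ 1000 ≤ s.κ j ∧
    j + 1 ≤ s.κ j

/-- `famSet` as a set of weights of level `j = j0 + i`. -/
def famJ (Fam : OV.Family (s.W 0)) (c : ℕ → ℕ) (j0 j : ℕ) (t : s.Rels) :
    Set (s.W j → s.W j → ℝ) :=
  {Λ | ∃ (i : ℕ) (e : j0 + i = j), ∃ Λ' ∈ famSet Fam c j0 i t, Λ = e ▸ Λ'}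

theorem famJ_add (Fam : OV.Family (s.W 0)) (c : ℕ → ℕ) (j0 i : ℕ) (t : s.Rels) :
    famJ Fam c j0 (j0 + i) t = famSet Fam c j0 i t := by
  ext Λ
  constructor
  · rintro ⟨i', e, Λ', h, rfl⟩
    have : i' = i := by omega
    subst this
    exact h
  · intro h
    exact ⟨i, rfl, Λ, h, rfl⟩

/-- The oracle: the family of weights at level `j`, for the stretch base `base j`. -/
noncomputable def oracle (Fam : OV.Family (s.W 0)) (c : ℕ → ℕ) (base : ℕ → ℕ) (j : ℕ)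
    (t : s.Rels) : Finset (s.W j → s.W j → ℝ) := by
  classical
  exact if base j ≤ j ∧ NumCond s (base j) j ∧ s.ListProp t (base j) (1 / 100) then
    toF (famJ Fam c (base j) j t) else ∅

theorem oracle_dep (Fam : OV.Family (s.W 0)) (c : ℕ → ℕ) (base : ℕ → ℕ) (j : ℕ) (t t' : s.Rels)
    (h : ∀ l < j, t l = t' l) : oracle Fam c base j t = oracle Fam c base j t' := by
  classical
  unfold oracle
  by_cases hb : base j ≤ j
  · have h1 : s.ListProp t (base j) (1 / 100) ↔ s.ListProp t' (base j) (1 / 100) :=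
      listProp_congr (fun l hl => h l (lt_of_lt_of_le hl hb)) _
    have h2 : famJ Fam c (base j) j t = famJ Fam c (base j) j t' := by
      obtain ⟨i, hi⟩ := Nat.exists_eq_add_of_le hb
      generalize base j = j0 at *
      subst hi
      rw [famJ_add, famJ_add]
      exact famSet_congr Fam c j0 i h
    rw [h2]
    by_cases hc : base j ≤ j ∧ NumCond s (base j) j ∧ s.ListProp t (base j) (1 / 100)
    · rw [if_pos hc, if_pos ⟨hc.1, hc.2.1, h1.1 hc.2.2⟩]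
    · rw [if_neg hc, if_neg fun hh => hc ⟨hh.1, hh.2.1, h1.2 hh.2.2⟩]
  · rw [if_neg fun hh => hb hh.1, if_neg fun hh => hb hh.1]

theorem oracle_card {Fam : OV.Family (s.W 0)} {c : ℕ → ℕ}
    (hF : ∀ N B n, (Fam N B n).Finite ∧ (Fam N B n).ncard ≤ 2 ^ ((B + n + 2) ^ c N * 2 ^ (B / 2)))
    (base : ℕ → ℕ) (j : ℕ) (t : s.Rels) :
    ((oracle Fam c base j t).card : ℝ) ≤
      Real.exp (4 / (((2 : ℝ) ^ s.lam j) ^ 2 * thr s j) - 1) := by
  classical
  unfold oracle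
  by_cases hc : base j ≤ j ∧ NumCond s (base j) j ∧ s.ListProp t (base j) (1 / 100)
  · rw [if_pos hc]
    obtain ⟨hb, ⟨h1, h2, h3, h4, h5⟩, hl⟩ := hc
    obtain ⟨i, hi⟩ := Nat.exists_eq_add_of_le hb
    generalize base j = j0 at *
    subst hi
    rw [Nat.add_sub_cancel_left] at h1
    rw [famJ_add, card_toF (famSet_finite hF j0 i t).1, ← pow_mul, mul_comm (s.lam (j0 + i)) 2]
    exact famSet_ncard_le hF j0 i t hl h1 h2 h3 h4 h5
  · rw [if_neg hc]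
    simp only [card_empty, Nat.cast_zero]
    exact (Real.exp_pos _).le

/-- The property of the relations obtained from the oracle. -/
def GoodRels (Fam : OV.Family (s.W 0)) (c : ℕ → ℕ) (base : ℕ → ℕ) (t : s.Rels) : Prop :=
  ∀ j, ∀ Λ ∈ oracle Fam c base j t, (∀ w w', 0 ≤ Λ w w') → (∀ w w', Λ w w' ≤ thr s j) →
    ∑ w, ∑ w', Λ w w' ≤ 2 → ∑ p ∈ s.G j (t j), Λ p.1 p.2 ≤ 8 / 2 ^ s.lam j

theorem rnd_mem_kers (t : s.Rels) (j0 i : ℕ) (f : s.W (j0 + i) → VT (s.W j0) i → ℝ)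
    (hf : ∀ w v, 0 ≤ f w v) :
    rnd (nr t j0 i) (2 ^ (2 * s.κ (j0 + i))) (Ent.ker f) ∈ kers t j0 i := by
  have h0 := Ent.ker_nonneg f hf
  exact rnd_mem _ _ fun w v =>
    (Finset.single_le_sum (f := fun w => Ent.ker f w v) (fun w _ => h0 w v) (mem_univ w)).trans
      (Ent.sum_ker_le_one f v)

theorem sum_rnd_kers_le (t : s.Rels) (j0 i : ℕ) (f : s.W (j0 + i) → VT (s.W j0) i → ℝ)
    (hf : ∀ w v, 0 ≤ f w v) (v : VT (s.W j0) i) :
    ∑ w, rnd (nr t j0 i) (2 ^ (2 * s.κ (j0 + i))) (Ent.ker f) w v ≤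
      1 + (2 : ℝ) ^ (-(s.κ (j0 + i) : ℝ)) := by
  have hM : 0 < 2 ^ (2 * s.κ (j0 + i)) := by positivity
  refine (sum_rnd_le _ hM _ (Ent.ker_nonneg f hf) (Ent.sum_ker_le_one f) v).trans (le_of_eq ?_)
  congr 1
  rw [Fintype.card_fin, Real.rpow_neg (by norm_num), two_rpow_nat]
  push_cast
  rw [two_mul, pow_add]
  field_simp

/-- What the level inequality needs (`hLam` of `Ent.level_ineq`), with the rounded kernels of
two arbitrary nonnegative laws `f1`, `f2`. -/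
theorem GoodRels.hLam {Fam : OV.Family (s.W 0)} {c : ℕ → ℕ}
    (hF : ∀ N B n, (Fam N B n).Finite ∧ (Fam N B n).ncard ≤ 2 ^ ((B + n + 2) ^ c N * 2 ^ (B / 2)))
    {base : ℕ → ℕ} {t : s.Rels} (ht : GoodRels Fam c base t) {j0 i : ℕ}
    (hbase : base (j0 + i) = j0) (hnum : NumCond s j0 (j0 + i))
    (hlist : s.ListProp t j0 (1 / 100)) {N : ℕ} (hN : N ≤ j0 + i)
    (hc : (s.κ (j0 + i) + 2 ^ (j0 + i + 1) + 2) ^ c N ≤ 2 ^ (s.κ (j0 + i) / 4))
    {L : Measure (Fin (2 ^ (j0 + i + 1)) → s.W 0)}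
    (hL : L ∈ Fam N (s.κ (j0 + i)) (2 ^ (j0 + i + 1))) (hL1 : L Set.univ ≤ 1)
    (f1 f2 : s.W (j0 + i) → VT (s.W j0) i → ℝ) (hf1 : ∀ w v, 0 ≤ f1 w v)
    (hf2 : ∀ w v, 0 ≤ f2 w v) (k1 k2 : s.W (j0 + i) → VT (s.W j0) i → ℝ)
    (hk1 : k1 = rnd (nr t j0 i) (2 ^ (2 * s.κ (j0 + i))) (Ent.ker f1))
    (hk2 : k2 = rnd (nr t j0 i) (2 ^ (2 * s.κ (j0 + i))) (Ent.ker f2)) :
    ∑ p, Ent.Lam (nr t j0 i) k1 k2 (LpOf t j0 i L) p ≤ 2 ∧
      ∑ p : s.W (j0 + i) × s.W (j0 + i),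
        (if s.GRel (j0 + i) (t (j0 + i)) p.1 p.2 ∧
            Ent.Lam (nr t j0 i) k1 k2 (LpOf t j0 i L) p ≤ thr s (j0 + i) then
          Ent.Lam (nr t j0 i) k1 k2 (LpOf t j0 i L) p else 0) ≤ 8 / 2 ^ s.lam (j0 + i) := by
  classical
  have hκ : 2 ≤ s.κ (j0 + i) := le_trans (by norm_num) hnum.2.2.2.1
  have m1 : k1 ∈ kers t j0 i := by rw [hk1]; exact rnd_mem_kers t j0 i f1 hf1
  have m2 : k2 ∈ kers t j0 i := by rw [hk2]; exact rnd_mem_kers t j0 i f2 hf2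
  have s1 : ∀ v, ∑ w, k1 w v ≤ 1 + (2 : ℝ) ^ (-(s.κ (j0 + i) : ℝ)) := by
    rw [hk1]; exact sum_rnd_kers_le t j0 i f1 hf1
  have s2 : ∀ v, ∑ w, k2 w v ≤ 1 + (2 : ℝ) ^ (-(s.κ (j0 + i) : ℝ)) := by
    rw [hk2]; exact sum_rnd_kers_le t j0 i f2 hf2
  refine ⟨sum_Lam_le_two t j0 i L hL1 hκ m1 m2 s1 s2, ?_⟩
  have hmem : wt t j0 i L k1 k2 ∈ oracle Fam c base (j0 + i) t := by
    unfold oracle
    rw [hbase, if_pos ⟨by omega, hnum, hlist⟩, famJ_add, mem_toF (famSet_finite hF j0 i t).1]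
    exact ⟨N, hN, hc, L, hL, k1, m1, k2, m2, rfl⟩
  have h := ht (j0 + i) _ hmem (wt_nonneg L m1 m2) (wt_le L k1 k2)
    (sum_wt_le_two t j0 i L hL1 hκ m1 m2 s1 s2)
  refine le_trans (le_of_eq ?_) h
  unfold Sched.G
  rw [Finset.sum_filter]
  refine Finset.sum_congr rfl fun p _ => ?_
  unfold wt
  by_cases h1 : s.GRel (j0 + i) (t (j0 + i)) p.1 p.2
  · by_cases h2 : Ent.Lam (nr t j0 i) k1 k2 (LpOf t j0 i L) p ≤ thr s (j0 + i)
    · rw [if_pos ⟨h1, h2⟩, if_pos h1, if_pos h2]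
    · rw [if_neg fun hh => h2 hh.2, if_pos h1, if_neg h2]
  · rw [if_neg fun hh => h1 hh.1, if_neg h1]

end Vale.Agent.P109.A424
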