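import Mathlib
import Vale.Agent.P109.A424.Cells
import Vale.Agent.P109.R996.EntMap

/-!
# P109, block [A] (helper424), file 2: phases and words on `M`, laws on `Z_j`
-/

open Finset MeasureTheory Set
open scoped ENNReal

namespace Vale.Agent.P109.A424

open H462 H462.Sched

/-- A system `(M, ν, S)` with (almost everywhere) phases and words of all levels. -/
structure Phased (s : Sched) (t : s.Rels) {M : Type} [MeasurableSpace M] (ν : Measure M)
    (S : M → M) where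
  M0 : Set M
  τ : ℕ → M → ℕ
  w : ∀ j, M → s.W j
  hM0 : MeasurableSet M0
  hM0null : ν M0ᶜ = 0
  hM0inv : ∀ z ∈ M0, S z ∈ M0
  hτ : ∀ j a, MeasurableSet {z | τ j z = a}
  hw : ∀ j a, MeasurableSet {z | w j z = a}
  τ_lt : ∀ j z, τ j z < 2 ^ j
  step : ∀ j, ∀ z ∈ M0, τ j z + 1 < 2 ^ j → τ j (S z) = τ j z + 1 ∧ w j (S z) = w j z
  lo : ∀ j z, τ (j + 1) z < 2 ^ j → τ j z = τ (j + 1) z ∧ w j z = s.left j (w (j + 1) z)
  hi : ∀ j z, 2 ^ j ≤ τ (j + 1) z →
    τ j z = τ (j + 1) z - 2 ^ j ∧ w j z = s.rightOf j (t j) (w (j + 1) z)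
  law : ∀ j i v, i < 2 ^ j →
    ν {z | τ j z = i ∧ w j z = v} = ((2 : ℝ≥0∞) ^ j * (2 : ℝ≥0∞) ^ s.κ j)⁻¹

/-- A map to a finite type, all of whose fibres are measurable. -/
def FM {M γ : Type} [MeasurableSpace M] (X : M → γ) : Prop := ∀ A : Set γ, MeasurableSet (X ⁻¹' A)

theorem FM.comp {M γ δ : Type} [MeasurableSpace M] {X : M → γ} (h : FM X) (f : γ → δ) :
    FM (fun z => f (X z)) := fun A => h (f ⁻¹' A)

theorem FM.of_fiber {M γ : Type} [MeasurableSpace M] [Countable γ] {X : M → γ}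
    (h : ∀ a, MeasurableSet {z | X z = a}) : FM X := by
  intro A
  have : X ⁻¹' A = ⋃ a ∈ A, {z | X z = a} := by ext z; simp
  rw [this]
  exact MeasurableSet.biUnion A.to_countable fun a _ => h a

theorem FM.prodMk {M γ δ : Type} [MeasurableSpace M] [Countable γ] [Countable δ] {X : M → γ}
    {Y : M → δ} (hX : FM X) (hY : FM Y) : FM (fun z => (X z, Y z)) := by
  refine FM.of_fiber fun a => ?_
  have : {z | (X z, Y z) = a} = X ⁻¹' {a.1} ∩ Y ⁻¹' {a.2} := by
    ext z; simp [Prod.ext_iff]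
  rw [this]
  exact (hX _).inter (hY _)

theorem FM.of_measurable {M γ : Type} [MeasurableSpace M] [MeasurableSpace γ]
    [DiscreteMeasurableSpace γ] {X : M → γ} (h : Measurable X) : FM X :=
  fun A => h (MeasurableSet.of_discrete)

theorem FM.comp_measurable {M M' γ : Type} [MeasurableSpace M] [MeasurableSpace M'] {X : M → γ}
    (h : FM X) {S : M' → M} (hS : Measurable S) : FM (fun z => X (S z)) := fun A => hS (h A)

namespace Phased

variable {s : Sched} {t : s.Rels} {M : Type} [MeasurableSpace M] {ν : Measure M}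
  {S : M → M} (P : Phased s t ν S)

/-- base of level `j` -/
def Z (j : ℕ) : Set M := {z | P.τ j z = 0}

theorem measurableSet_Z (j : ℕ) : MeasurableSet (P.Z j) := P.hτ j 0

theorem FM_w (j : ℕ) : FM (P.w j) := FM.of_fiber (P.hw j)
theorem FM_τ (j : ℕ) : FM (P.τ j) := FM.of_fiber (P.hτ j)

theorem iter_mem {z : M} (hz : z ∈ P.M0) (k : ℕ) : S^[k] z ∈ P.M0 := by
  induction k with
  | zero => exact hz
  | succ k ih => rw [Function.iterate_succ_apply']; exact P.hM0inv _ ih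

theorem iter_step (j : ℕ) {z : M} (hz : z ∈ P.M0) (k : ℕ) (hk : P.τ j z + k < 2 ^ j) :
    P.τ j (S^[k] z) = P.τ j z + k ∧ P.w j (S^[k] z) = P.w j z := by
  induction k with
  | zero => simp
  | succ k ih =>
    obtain ⟨h1, h2⟩ := ih (by omega)
    rw [Function.iterate_succ_apply']
    have := P.step j _ (P.iter_mem hz k) (by omega)
    rw [this.1, this.2, h1, h2]
    exact ⟨by ring, rfl⟩

/-- On `Z (j+1)`: the two halves. -/
theorem halves (j : ℕ) {z : M} (hz : z ∈ P.M0) (h0 : P.τ (j + 1) z = 0) :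
    P.τ j z = 0 ∧ P.w j z = s.left j (P.w (j + 1) z) ∧ P.τ j (S^[2 ^ j] z) = 0 ∧
      P.w j (S^[2 ^ j] z) = s.rightOf j (t j) (P.w (j + 1) z) := by
  have hp : 0 < 2 ^ j := by positivity
  have h1 := P.lo j z (by omega)
  have h2 := P.iter_step (j + 1) hz (2 ^ j) (by rw [h0, pow_succ]; omega)
  have h3 := P.hi j (S^[2 ^ j] z) (by rw [h2.1]; omega)
  refine ⟨by rw [h1.1, h0], h1.2, by rw [h3.1, h2.1, h0]; omega, by rw [h3.2, h2.2]⟩

/-- The letters of the word of level `j`, along the orbit of a point of `Z j`. -/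
theorem letter_iter (j : ℕ) {z : M} (hz : z ∈ P.M0) (h0 : P.τ j z = 0) (k : ℕ) (hk : k < 2 ^ j) :
    P.w 0 (S^[k] z) = s.letter t j k (P.w j z) := by
  induction j generalizing z k with
  | zero =>
    have : k = 0 := by simpa using hk
    subst this
    simp
  | succ j ih =>
    obtain ⟨h1, h2, h3, h4⟩ := P.halves j hz h0
    rw [letter_succ]
    split_ifs with hkj
    · rw [← h2]; exact ih hz h1 k hkj
    · rw [← h4]
      have hlt : k - 2 ^ j < 2 ^ j := by
        have : 2 ^ (j + 1) = 2 ^ j + 2 ^ j := by ring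
        omega
      have := ih (P.iter_mem hz (2 ^ j)) h3 (k - 2 ^ j) hlt
      rw [← this, ← Function.iterate_add_apply]
      congr 2
      omega

/-- law of the phase -/
theorem measure_τ (j i : ℕ) (hi : i < 2 ^ j) : ν {z | P.τ j z = i} = ((2 : ℝ≥0∞) ^ j)⁻¹ := by
  have h1 : {z | P.τ j z = i} = ⋃ v : s.W j, {z | P.τ j z = i ∧ P.w j z = v} := by
    ext z; simp
  rw [h1, measure_iUnion]
  · simp_rw [P.law j i _ hi]
    rw [tsum_fintype, Finset.sum_const, Finset.card_univ, Fintype.card_fin, nsmul_eq_mul,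
      ENNReal.mul_inv (Or.inl (by simp)) (Or.inl (by simp))]
    push_cast
    rw [mul_comm, mul_assoc, ENNReal.inv_mul_cancel (by simp) (by simp), mul_one]
  · intro v v' hvv'
    rw [Function.onFun, Set.disjoint_left]
    rintro z ⟨_, h2⟩ ⟨_, h3⟩
    exact hvv' (h2.symm.trans h3)
  · intro v
    exact (P.hτ j i).inter (P.hw j v)

theorem measure_Z (j : ℕ) : ν (P.Z j) = ((2 : ℝ≥0∞) ^ j)⁻¹ := P.measure_τ j 0 (by positivity)

/-- `Z j` is the disjoint union of `Z (j+1)` and `S^{2^j} Z (j+1)`. -/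
theorem measure_Z_inter [IsFiniteMeasure ν] (hS : MeasurePreserving S ν ν) (j : ℕ) {E : Set M} (hE : MeasurableSet E) :
    ν (P.Z j ∩ E) = ν (P.Z (j + 1) ∩ E) + ν (P.Z (j + 1) ∩ S^[2 ^ j] ⁻¹' E) := by
  have hp : 2 ^ (j + 1) = 2 ^ j + 2 ^ j := by ring
  have h2j : 0 < 2 ^ j := by positivity
  have hSk : MeasurePreserving (S^[2 ^ j]) ν ν := hS.iterate _
  have h1 : P.Z j ∩ E = (P.Z (j + 1) ∩ E) ∪ ({z | P.τ (j + 1) z = 2 ^ j} ∩ E) := by
    ext z
    simp only [Z, Set.mem_inter_iff, Set.mem_setOf_eq, Set.mem_union]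
    have hlt := P.τ_lt (j + 1) z
    rcases lt_or_ge (P.τ (j + 1) z) (2 ^ j) with h | h
    · have := (P.lo j z h).1
      constructor
      · rintro ⟨ha, hb⟩; left; exact ⟨by omega, hb⟩
      · rintro (⟨ha, hb⟩ | ⟨ha, hb⟩)
        · exact ⟨by omega, hb⟩
        · omega
    · have := (P.hi j z h).1
      constructor
      · rintro ⟨ha, hb⟩; right; exact ⟨by omega, hb⟩
      · rintro (⟨ha, hb⟩ | ⟨ha, hb⟩)
        · omega
        · exact ⟨by omega, hb⟩
  have hdis : Disjoint (P.Z (j + 1) ∩ E) ({z | P.τ (j + 1) z = 2 ^ j} ∩ E) := by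
    rw [Set.disjoint_left]
    rintro z ⟨ha, _⟩ ⟨hb, _⟩
    simp only [Z, Set.mem_setOf_eq] at ha hb
    omega
  rw [h1, measure_union hdis ((P.hτ (j + 1) (2 ^ j)).inter hE)]
  congr 1
  -- `ν ({τ = 2^j} ∩ E) = ν (S^{-2^j} ({τ = 2^j} ∩ E))`
  rw [← hSk.measure_preimage ((P.hτ (j + 1) (2 ^ j)).inter hE).nullMeasurableSet, Set.preimage_inter]
  -- compare `Z (j+1)` with `S^{-2^j} {τ = 2^j}`
  have hsub : (P.Z (j + 1) ∩ P.M0 : Set M) ⊆ S^[2 ^ j] ⁻¹' {z | P.τ (j + 1) z = 2 ^ j} := by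
    rintro z ⟨ha, hz⟩
    have ha' : P.τ (j + 1) z = 0 := ha
    have := (P.iter_step (j + 1) hz (2 ^ j) (by omega)).1
    simp only [Set.mem_preimage, Set.mem_setOf_eq]
    omega
  have hae1 : (P.Z (j + 1) ∩ P.M0 : Set M) =ᵐ[ν] P.Z (j + 1) := by
    have h0 : P.M0 =ᵐ[ν] Set.univ := by
      rw [ae_eq_univ]; exact P.hM0null
    have := (Filter.EventuallyEq.refl (ae ν) (P.Z (j + 1))).inter h0
    simpa using this
  have hmeas : ν (S^[2 ^ j] ⁻¹' {z | P.τ (j + 1) z = 2 ^ j}) ≤ ν (P.Z (j + 1) ∩ P.M0) := by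
    rw [hSk.measure_preimage (P.hτ (j + 1) (2 ^ j)).nullMeasurableSet, measure_congr hae1,
      P.measure_Z, P.measure_τ (j + 1) (2 ^ j) (by omega)]
  have hae2 := ae_eq_of_subset_of_measure_ge hsub hmeas
    ((P.measurableSet_Z (j + 1)).inter P.hM0).nullMeasurableSet (measure_ne_top _ _)
  have hae3 := (hae2.symm.trans hae1).inter (Filter.EventuallyEq.refl (ae ν) (S^[2 ^ j] ⁻¹' E))
  exact measure_congr hae3

/-! ### Laws of finite valued maps under `ν (· | Z j)` -/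

/-- law of `X` under `ν (· | Z j)` -/
noncomputable def lawZ (j : ℕ) {γ : Type} (X : M → γ) (c : γ) : ℝ :=
  2 ^ j * ν.real (P.Z j ∩ X ⁻¹' {c})

theorem lawZ_nonneg (j : ℕ) {γ : Type} (X : M → γ) (c : γ) : 0 ≤ P.lawZ j X c := by
  unfold lawZ; positivity

theorem sum_lawZ [IsFiniteMeasure ν] (j : ℕ) {γ : Type} [Fintype γ] {X : M → γ} (hX : FM X)
    (A : Finset γ) : ∑ c ∈ A, P.lawZ j X c = 2 ^ j * ν.real (P.Z j ∩ X ⁻¹' (A : Set γ)) := by
  classical
  unfold lawZ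
  rw [← Finset.mul_sum]
  congr 1
  have h1 : P.Z j ∩ X ⁻¹' (A : Set γ) = ⋃ c ∈ A, (P.Z j ∩ X ⁻¹' {c}) := by
    ext z; simp
  rw [h1, measureReal_biUnion_finset]
  · intro c _ c' _ hcc
    rw [Function.onFun, Set.disjoint_left]
    rintro z ⟨_, h2⟩ ⟨_, h3⟩
    simp only [Set.mem_preimage, Set.mem_singleton_iff] at h2 h3
    exact hcc (h2.symm.trans h3)
  · intro c _
    exact (P.measurableSet_Z j).inter (hX _)

theorem sum_lawZ_univ [IsFiniteMeasure ν] (j : ℕ) {γ : Type} [Fintype γ] {X : M → γ} (hX : FM X) :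
    ∑ c, P.lawZ j X c = 1 := by
  rw [P.sum_lawZ j hX, Finset.coe_univ, Set.preimage_univ, Set.inter_univ, measureReal_def,
    P.measure_Z]
  simp

/-- law of a function of `X` -/
theorem lawZ_comp [IsFiniteMeasure ν] (j : ℕ) {γ δ : Type} [Fintype γ] [DecidableEq δ] {X : M → γ}
    (hX : FM X) (f : γ → δ) (d : δ) :
    P.lawZ j (fun z => f (X z)) d = ∑ c, if f c = d then P.lawZ j X c else 0 := by
  classical
  rw [← Finset.sum_filter, P.sum_lawZ j hX]
  unfold lawZ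
  congr 3
  ext z
  simp

/-- changing the map off a null set -/
theorem lawZ_congr (j : ℕ) {γ : Type} {X Y : M → γ} (h : ∀ z ∈ P.M0, P.τ j z = 0 → X z = Y z)
    (c : γ) : P.lawZ j X c = P.lawZ j Y c := by
  unfold lawZ
  congr 1
  apply measureReal_congr
  have h0 : ∀ᵐ z ∂ν, z ∈ P.M0 := by rw [ae_iff]; exact P.hM0null
  filter_upwards [h0] with z hz
  apply propext
  constructor
  · rintro ⟨ha, hb⟩
    exact ⟨ha, by rw [Set.mem_preimage] at hb ⊢; rwa [← h z hz ha]⟩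
  · rintro ⟨ha, hb⟩
    exact ⟨ha, by rw [Set.mem_preimage] at hb ⊢; rwa [h z hz ha]⟩

/-- `ν (· | Z j)` is the average of the two halves. -/
theorem lawZ_split [IsFiniteMeasure ν] (hS : MeasurePreserving S ν ν) (j : ℕ) {γ : Type}
    {X : M → γ} (hX : FM X) (c : γ) :
    P.lawZ j X c = (P.lawZ (j + 1) X c + P.lawZ (j + 1) (fun z => X (S^[2 ^ j] z)) c) / 2 := by
  unfold lawZ
  rw [measureReal_def, P.measure_Z_inter hS j (hX {c}), ENNReal.toReal_add (measure_ne_top _ _)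
    (measure_ne_top _ _), pow_succ]
  simp only [measureReal_def]
  have : (fun z => X (S^[2 ^ j] z)) ⁻¹' {c} = S^[2 ^ j] ⁻¹' (X ⁻¹' {c}) := rfl
  rw [this]
  ring

end Phased

end Vale.Agent.P109.A424
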