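import Mathlib
import Vale.Agent.P109.A424.Phased

/-!
# P109, block [A] (helper424), file 3: the decoded name of a point
-/

open Finset MeasureTheory Set
open scoped ENNReal

namespace Vale.Agent.P109.A424

open H462 H462.Sched

variable {s : Sched} {M : Type}

/-- The decoded `α`-name of `z` of length `2 ^ (j0 + i)`. -/
noncomputable def vv (t : s.Rels) (j0 : ℕ) (S : M → M) (α : M → s.W 0) (i : ℕ) (z : M) :
    VT (s.W j0) i :=
  decAt t j0 i (fun k => α (S^[k] z))

theorem vv_succ (t : s.Rels) (j0 : ℕ) (S : M → M) (α : M → s.W 0) (i : ℕ) (z : M) :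
    vv t j0 S α (i + 1) z = (vv t j0 S α i z, vv t j0 S α i (S^[2 ^ (j0 + i)] z)) := by
  unfold vv
  have : decAt t j0 (i + 1) (fun k => α (S^[k] z)) =
      (decAt t j0 i (fun k => α (S^[k] z)), decAt t j0 i (fun k => α (S^[2 ^ (j0 + i) + k] z))) :=
    rfl
  rw [this]
  congr 2
  funext k
  rw [add_comm, Function.iterate_add_apply]

/-- extension of a finite name to a function on `ℕ` -/
def ext {n : ℕ} (u : Fin n → s.W 0) (k : ℕ) : s.W 0 :=
  if h : k < n then u ⟨k, h⟩ else ⟨0, by positivity⟩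

theorem vv_eq_decAt_ext (t : s.Rels) (j0 : ℕ) (S : M → M) (α : M → s.W 0) (i : ℕ) (z : M) :
    vv t j0 S α i z = decAt t j0 i (ext (fun r : Fin (2 ^ (j0 + i)) => α (S^[r] z))) := by
  unfold vv
  refine decAt_congr i fun k hk => ?_
  unfold ext
  rw [dif_pos hk]

theorem FM_vv [MeasurableSpace M] (t : s.Rels) (j0 : ℕ) {S : M → M} (hS : Measurable S)
    {α : M → s.W 0} (hα : Measurable α) (i : ℕ) : FM (vv t j0 S α i) := by
  have h1 : Measurable (fun z => (fun r : Fin (2 ^ (j0 + i)) => α (S^[r] z))) := by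
    refine measurable_pi_lambda _ fun r => hα.comp (hS.iterate r)
  have h2 : FM (fun z => (fun r : Fin (2 ^ (j0 + i)) => α (S^[r] z))) := by
    refine FM.of_fiber fun a => ?_
    exact h1 (measurableSet_singleton a)
  have h3 := h2.comp (fun u => decAt t j0 i (ext u))
  have h4 : vv t j0 S α i = fun z =>
      decAt t j0 i (ext (fun r : Fin (2 ^ (j0 + i)) => α (S^[r] z))) := by
    funext z; exact vv_eq_decAt_ext t j0 S α i z
  rw [h4]
  exact h3

end Vale.Agent.P109.A424
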