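import Mathlib
import Vale.Agent.P109.A424.Names
import Vale.Agent.P109.A874.Near

/-!
# P109, block [A] (helper424), file 4: the law of the two halves and the level step
-/

open Finset MeasureTheory Set
open scoped ENNReal

namespace Vale.Agent.P109.A424

open H462 H462.Sched Ent

namespace Phased

variable {s : Sched} {t : s.Rels} {M : Type} [MeasurableSpace M] {ν : Measure M}
  {S : M → M} (P : Phased s t ν S)

/-- law of the word and of the decoded name on `Z (j0 + i)` -/
noncomputable def mi (j0 : ℕ) (α : M → s.W 0) (i : ℕ) : s.W (j0 + i) → VT (s.W j0) i → ℝ :=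
  fun w v => P.lawZ (j0 + i) (fun z => (P.w (j0 + i) z, vv t j0 S α i z)) (w, v)

/-- the two halves of the word and of the decoded name, on `Z (j0 + i + 1)` -/
noncomputable def XP (j0 : ℕ) (α : M → s.W 0) (i : ℕ) (z : M) :
    (s.W (j0 + i) × s.W (j0 + i)) × (VT (s.W j0) i × VT (s.W j0) i) :=
  ((s.left (j0 + i) (P.w (j0 + i + 1) z), s.rightOf (j0 + i) (t (j0 + i)) (P.w (j0 + i + 1) z)),
    (vv t j0 S α i z, vv t j0 S α i (S^[2 ^ (j0 + i)] z)))

/-- law of the two halves -/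
noncomputable def lawP (j0 : ℕ) (α : M → s.W 0) (i : ℕ) :
    s.W (j0 + i) × s.W (j0 + i) → VT (s.W j0) i × VT (s.W j0) i → ℝ :=
  fun w v => P.lawZ (j0 + i + 1) (P.XP j0 α i) (w, v)

theorem mi_nonneg (j0 : ℕ) (α : M → s.W 0) (i : ℕ) (w : s.W (j0 + i)) (v : VT (s.W j0) i) :
    0 ≤ P.mi j0 α i w v := P.lawZ_nonneg _ _ _

theorem lawP_nonneg (j0 : ℕ) (α : M → s.W 0) (i : ℕ) (w : s.W (j0 + i) × s.W (j0 + i))
    (v : VT (s.W j0) i × VT (s.W j0) i) : 0 ≤ P.lawP j0 α i w v := P.lawZ_nonneg _ _ _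

section

variable [IsFiniteMeasure ν] (hS : MeasurePreserving S ν ν) {α : M → s.W 0} (hα : Measurable α)

include hS hα in
theorem FM_XP (j0 i : ℕ) : FM (P.XP j0 α i) := by
  have h1 : FM (fun z => (s.left (j0 + i) (P.w (j0 + i + 1) z),
      s.rightOf (j0 + i) (t (j0 + i)) (P.w (j0 + i + 1) z))) :=
    (P.FM_w (j0 + i + 1)).comp (fun w => (s.left (j0 + i) w, s.rightOf (j0 + i) (t (j0 + i)) w))
  have h2 : FM (vv t j0 S α i) := FM_vv t j0 hS.measurable hα i
  have h3 : FM (fun z => vv t j0 S α i (S^[2 ^ (j0 + i)] z)) :=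
    h2.comp_measurable (hS.measurable.iterate _)
  exact h1.prodMk (h2.prodMk h3)

include hS hα in
theorem FM_wv (j0 i : ℕ) : FM (fun z => (P.w (j0 + i) z, vv t j0 S α i z)) :=
  (P.FM_w (j0 + i)).prodMk (FM_vv t j0 hS.measurable hα i)

include hS hα in
theorem sum_mi (j0 i : ℕ) : ∑ v, ∑ w, P.mi j0 α i w v = 1 := by
  have := P.sum_lawZ_univ (j0 + i) (P.FM_wv hS hα j0 i)
  rw [Fintype.sum_prod_type, Finset.sum_comm] at this
  exact this

include hS hα in
theorem sum_lawP (j0 i : ℕ) : ∑ v, ∑ w, P.lawP j0 α i w v = 1 := by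
  have := P.sum_lawZ_univ (j0 + i + 1) (P.FM_XP hS hα j0 i)
  rw [Fintype.sum_prod_type, Finset.sum_comm] at this
  exact this

/-- the law of the two halves and the law at the next level have the same conditional entropy -/
theorem Hc_lawP (j0 i : ℕ) (α : M → s.W 0) :
    Hc (P.mi j0 α (i + 1)) = Hc (P.lawP j0 α i) := by
  have hinj := halves_injective (s := s) (j0 + i) (t (j0 + i))
  have h1 := Hc_inj (P.lawP j0 α i)
    (fun w : s.W (j0 + i + 1) => (s.left (j0 + i) w, s.rightOf (j0 + i) (t (j0 + i)) w)) hinj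
    (by
      intro a ha b
      unfold lawP lawZ
      have : P.XP j0 α i ⁻¹' {(a, b)} = ∅ := by
        rw [Set.eq_empty_iff_forall_notMem]
        intro z hz
        have hz' : P.XP j0 α i z = (a, b) := hz
        exact ha ⟨P.w (j0 + i + 1) z, congrArg Prod.fst hz'⟩
      rw [this]
      simp)
  rw [← h1]
  have h2 : P.mi j0 α (i + 1) = fun (w : s.W (j0 + i + 1)) v =>
      P.lawP j0 α i (s.left (j0 + i) w, s.rightOf (j0 + i) (t (j0 + i)) w) v := by
    funext w v
    have hset : (fun z => (P.w (j0 + (i + 1)) z, vv t j0 S α (i + 1) z)) ⁻¹' {(w, v)} =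
        P.XP j0 α i ⁻¹' {((s.left (j0 + i) w, s.rightOf (j0 + i) (t (j0 + i)) w), v)} := by
      ext z
      simp only [Set.mem_preimage, Set.mem_singleton_iff]
      rw [vv_succ]
      constructor
      · intro h
        have h2 : P.w (j0 + i + 1) z = w := congrArg Prod.fst h
        have h3 : (vv t j0 S α i z, vv t j0 S α i (S^[2 ^ (j0 + i)] z)) = v :=
          congrArg Prod.snd h
        unfold XP
        rw [h2, h3]
        exact Set.mem_singleton _
      · intro h
        have h2 := congrArg Prod.fst h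
        have h3 := congrArg Prod.snd h
        exact Prod.ext (hinj h2) h3
    show 2 ^ (j0 + (i + 1)) * ν.real (P.Z (j0 + (i + 1)) ∩ _) = _
    rw [hset]
    rfl
  rw [h2]
  rfl

theorem lawP_eq_zero (j0 i : ℕ) (α : M → s.W 0) {w : s.W (j0 + i) × s.W (j0 + i)}
    (hw : ¬ s.GRel (j0 + i) (t (j0 + i)) w.1 w.2) (v : VT (s.W j0) i × VT (s.W j0) i) :
    P.lawP j0 α i w v = 0 := by
  unfold lawP lawZ
  have : P.XP j0 α i ⁻¹' {(w, v)} = ∅ := by
    rw [Set.eq_empty_iff_forall_notMem]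
    intro z hz
    have hz' : P.XP j0 α i z = (w, v) := hz
    have h1 : (P.XP j0 α i z).1 = w := congrArg Prod.fst hz'
    apply hw
    rw [← h1]
    exact gRel_halves (j0 + i) (t (j0 + i)) (P.w (j0 + i + 1) z)
  rw [this]
  simp

include hS hα in
theorem marg1_lawP (j0 i : ℕ) (w : s.W (j0 + i)) (v : VT (s.W j0) i) :
    marg1 (P.lawP j0 α i) w v =
      P.lawZ (j0 + i + 1) (fun z => (P.w (j0 + i) z, vv t j0 S α i z)) (w, v) := by
  classical
  have h1 : P.lawZ (j0 + i + 1) (fun z => (P.w (j0 + i) z, vv t j0 S α i z)) (w, v) =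
      P.lawZ (j0 + i + 1) (fun z => ((P.XP j0 α i z).1.1, (P.XP j0 α i z).2.1)) (w, v) := by
    refine P.lawZ_congr (j0 + i + 1) (fun z hz h0 => ?_) _
    obtain ⟨h1, h2, h3, h4⟩ := P.halves (j0 + i) hz h0
    unfold XP
    simp only
    rw [h2]
  rw [h1, P.lawZ_comp (j0 + i + 1) (P.FM_XP hS hα j0 i) (fun x => (x.1.1, x.2.1))]
  simp only [Fintype.sum_prod_type, Prod.mk.injEq]
  unfold marg1
  symm
  rw [Finset.sum_eq_single w]
  · refine Finset.sum_congr rfl fun w' _ => ?_
    rw [Finset.sum_eq_single v]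
    · simp [lawP]
    · intro v' _ hv'
      simp [hv']
    · simp
  · intro w' _ hw'
    simp [hw']
  · simp

include hS hα in
theorem marg2_lawP (j0 i : ℕ) (w : s.W (j0 + i)) (v : VT (s.W j0) i) :
    marg2 (P.lawP j0 α i) w v =
      P.lawZ (j0 + i + 1) (fun z => (P.w (j0 + i) (S^[2 ^ (j0 + i)] z),
        vv t j0 S α i (S^[2 ^ (j0 + i)] z))) (w, v) := by
  classical
  have h1 : P.lawZ (j0 + i + 1) (fun z => (P.w (j0 + i) (S^[2 ^ (j0 + i)] z),
        vv t j0 S α i (S^[2 ^ (j0 + i)] z))) (w, v) =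
      P.lawZ (j0 + i + 1) (fun z => ((P.XP j0 α i z).1.2, (P.XP j0 α i z).2.2)) (w, v) := by
    refine P.lawZ_congr (j0 + i + 1) (fun z hz h0 => ?_) _
    obtain ⟨h1, h2, h3, h4⟩ := P.halves (j0 + i) hz h0
    unfold XP
    simp only
    rw [h4]
  rw [h1, P.lawZ_comp (j0 + i + 1) (P.FM_XP hS hα j0 i) (fun x => (x.1.2, x.2.2))]
  simp only [Fintype.sum_prod_type, Prod.mk.injEq]
  unfold marg2
  symm
  refine Finset.sum_congr rfl fun w' _ => ?_
  rw [Finset.sum_eq_single w]
  · refine Finset.sum_congr rfl fun v' _ => ?_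
    rw [Finset.sum_eq_single v]
    · simp [lawP]
    · intro v'' _ hv''
      simp [hv'']
    · simp
  · intro w'' _ hw''
    simp [hw'']
  · simp

include hS hα in
theorem avg_lawP (j0 i : ℕ) : avg (P.lawP j0 α i) = P.mi j0 α i := by
  funext w v
  unfold avg
  rw [P.marg1_lawP hS hα, P.marg2_lawP hS hα]
  unfold mi
  rw [P.lawZ_split hS (j0 + i) (P.FM_wv hS hα j0 i)]

include hS hα in
theorem sum_v_lawP_le (j0 i : ℕ) (w : s.W (j0 + i) × s.W (j0 + i)) :
    ∑ v, P.lawP j0 α i w v ≤ (2 ^ s.κ (j0 + i + 1) : ℝ)⁻¹ := by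
  classical
  by_cases hw : s.GRel (j0 + i) (t (j0 + i)) w.1 w.2
  · obtain ⟨a, ha1, ha2⟩ := exists_of_gRel hw
    have h1 : ∑ v, P.lawP j0 α i w v =
        P.lawZ (j0 + i + 1) (fun z => (P.XP j0 α i z).1) w := by
      rw [P.lawZ_comp (j0 + i + 1) (P.FM_XP hS hα j0 i) (fun x => x.1)]
      rw [Fintype.sum_prod_type (f := fun c : (s.W (j0 + i) × s.W (j0 + i)) ×
        (VT (s.W j0) i × VT (s.W j0) i) => if c.1 = w then P.lawZ (j0 + i + 1) (P.XP j0 α i) c else 0)]
      symm
      rw [Finset.sum_eq_single w]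
      · simp [lawP]
      · intro w' _ hw'
        simp [hw']
      · simp
    rw [h1]
    unfold lawZ
    have h2 : (P.Z (j0 + i + 1) ∩ (fun z => (P.XP j0 α i z).1) ⁻¹' {w}) =
        {z | P.τ (j0 + i + 1) z = 0 ∧ P.w (j0 + i + 1) z = a} := by
      ext z
      simp only [Z, XP, Set.mem_inter_iff, Set.mem_preimage, Set.mem_singleton_iff,
        Set.mem_ofPred_eq]
      refine and_congr_right fun _ => ?_
      constructor
      · intro h
        refine halves_injective (s := s) (j0 + i) (t (j0 + i)) ?_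
        simp only
        rw [h, ha1, ha2]
      · intro h
        rw [h, ha1, ha2]
    rw [h2, measureReal_def, P.law _ _ _ (by positivity)]
    rw [ENNReal.toReal_inv, ENNReal.toReal_mul, ENNReal.toReal_pow, ENNReal.toReal_pow]
    simp only [ENNReal.toReal_ofNat]
    rw [mul_inv, ← mul_assoc, mul_inv_cancel₀ (by positivity), one_mul]
  · rw [Finset.sum_eq_zero fun v _ => P.lawP_eq_zero j0 i α hw v]
    positivity

end

end Phased

end Vale.Agent.P109.A424
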