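import Mathlib
import Vale.Agent.P109.A424.Step
import Vale.Agent.P109.OV.Interface

/-!
# P109, block [A] (helper424), file 5: domination, level step
-/

open Finset MeasureTheory Set
open scoped ENNReal

namespace Vale.Agent.P109.A424

open H462 H462.Sched Ent

/-- Both halves are near, except for twice the mass of the pairs which are not near. -/
theorem near_pair {W V : Type*} [Fintype W] [Fintype V] (μ : W × W → V × V → ℝ)
    (h : ∀ w v, 0 ≤ μ w v) (htot : ∑ v, ∑ w, μ w v = 1) (near : W → V → Prop)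
    [∀ w v, Decidable (near w v)] :
    1 - 2 * ∑ v, ∑ w, (if near w v then 0 else avg μ w v) ≤
      ∑ v : V × V, ∑ w : W × W, if near w.1 v.1 ∧ near w.2 v.2 then μ w v else 0 := by
  classical
  have h1 : ∑ v : V × V, ∑ w : W × W, μ w v ≤ ∑ v : V × V, ∑ w : W × W,
      ((if near w.1 v.1 ∧ near w.2 v.2 then μ w v else 0) +
        ((if near w.1 v.1 then 0 else μ w v) + (if near w.2 v.2 then 0 else μ w v))) := by
    refine Finset.sum_le_sum fun v _ => Finset.sum_le_sum fun w _ => ?_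
    have := h w v
    by_cases h1 : near w.1 v.1 <;> by_cases h2 : near w.2 v.2 <;> simp [h1, h2, this]
  simp only [Finset.sum_add_distrib] at h1
  have h2 : ∑ v : V × V, ∑ w : W × W, (if near w.1 v.1 then 0 else μ w v) =
      ∑ v, ∑ w, (if near w v then 0 else marg1 μ w v) := by
    rw [Fintype.sum_prod_type]
    refine Finset.sum_congr rfl fun v _ => ?_
    calc ∑ y, ∑ w : W × W, (if near w.1 (v, y).1 then 0 else μ w (v, y))
        = ∑ y, ∑ a, ∑ b, (if near a v then 0 else μ (a, b) (v, y)) := by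
          simp only [Fintype.sum_prod_type]
      _ = ∑ a, ∑ y, ∑ b, (if near a v then 0 else μ (a, b) (v, y)) := Finset.sum_comm
      _ = _ := by
          refine Finset.sum_congr rfl fun a _ => ?_
          unfold marg1
          split_ifs with hn
          · simp
          · exact Finset.sum_comm
  have h3 : ∑ v : V × V, ∑ w : W × W, (if near w.2 v.2 then 0 else μ w v) =
      ∑ v, ∑ w, (if near w v then 0 else marg2 μ w v) := by
    rw [Fintype.sum_prod_type_right]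
    refine Finset.sum_congr rfl fun v _ => ?_
    calc ∑ y, ∑ w : W × W, (if near w.2 (y, v).2 then 0 else μ w (y, v))
        = ∑ y, ∑ a, ∑ b, (if near a v then 0 else μ (b, a) (y, v)) := by
          simp only [Fintype.sum_prod_type_right]
      _ = ∑ a, ∑ y, ∑ b, (if near a v then 0 else μ (b, a) (y, v)) := Finset.sum_comm
      _ = _ := by
          refine Finset.sum_congr rfl fun a _ => ?_
          unfold marg2
          split_ifs with hn
          · simp
          · exact Finset.sum_comm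
  have h4 : 2 * ∑ v, ∑ w, (if near w v then 0 else avg μ w v) =
      ∑ v, ∑ w, (if near w v then 0 else marg1 μ w v) +
      ∑ v, ∑ w, (if near w v then 0 else marg2 μ w v) := by
    rw [Finset.mul_sum, ← Finset.sum_add_distrib]
    refine Finset.sum_congr rfl fun v _ => ?_
    rw [Finset.mul_sum, ← Finset.sum_add_distrib]
    refine Finset.sum_congr rfl fun w _ => ?_
    unfold avg
    split_ifs <;> ring
  rw [htot, h2, h3] at h1
  linarith

namespace Phased

variable {s : Sched} {t : s.Rels} {M : Type} [MeasurableSpace M] {ν : Measure M}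
  {S : M → M} (P : Phased s t ν S)
variable [IsFiniteMeasure ν] (hS : MeasurePreserving S ν ν) {α : M → s.W 0} (hα : Measurable α)

include hS hα in
theorem sum_sum_lawP (j0 i : ℕ) (A : Finset (VT (s.W j0) i × VT (s.W j0) i)) :
    ∑ v ∈ A, ∑ w, P.lawP j0 α i w v =
      2 ^ (j0 + i + 1) * ν.real (P.Z (j0 + i + 1) ∩ {z | (P.XP j0 α i z).2 ∈ A}) := by
  classical
  have h := P.sum_lawZ (j0 + i + 1) (P.FM_XP hS hα j0 i)
    ((Finset.univ : Finset (s.W (j0 + i) × s.W (j0 + i))) ×ˢ A)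
  rw [Finset.sum_product, Finset.sum_comm] at h
  have h2 : (((Finset.univ : Finset (s.W (j0 + i) × s.W (j0 + i))) ×ˢ A : Finset _) : Set ((s.W (j0 + i) × s.W (j0 + i)) ×
      (VT (s.W j0) i × VT (s.W j0) i))) = {c | c.2 ∈ A} := by
    ext c; simp
  rw [h2] at h
  exact h

include hS hα in
/-- domination of the law of the decoded name by the image of `L` -/
theorem dom (j0 i : ℕ) {G : Set M} (hG : MeasurableSet G) {ε' : ℝ} (hε : 0 ≤ ε')
    (L : Measure (Fin (2 ^ (j0 + i + 1)) → s.W 0)) (hL : L Set.univ ≤ 1)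
    (hG1 : (2 ^ (j0 + i + 1) : ℝ≥0∞) * ν ((P.Z (j0 + i + 1) ∩ P.M0) \ G) ≤ ENNReal.ofReal ε')
    (hG2 : ∀ U : Set (Fin (2 ^ (j0 + i + 1)) → s.W 0),
      ν (G ∩ {z | OV.name S α (2 ^ (j0 + i + 1)) z ∈ U}) ≤ 2 * L U)
    (A : Finset (VT (s.W j0) i × VT (s.W j0) i)) :
    ∑ v ∈ A, ∑ w, P.lawP j0 α i w v ≤ 2 ^ (j0 + i + 2) *
      ∑ v ∈ A, (L {u | decAt t j0 (i + 1) (ext u) = v}).toReal + ε' := by
  classical
  have : IsFiniteMeasure L := ⟨lt_of_le_of_lt hL (by simp)⟩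
  rw [P.sum_sum_lawP hS hα]
  set U : Set (Fin (2 ^ (j0 + i + 1)) → s.W 0) :=
    {u | (decAt t j0 (i + 1) (ext u) : VT (s.W j0) i × VT (s.W j0) i) ∈ A} with hU
  have hname : ∀ z, OV.name S α (2 ^ (j0 + i + 1)) z ∈ U ↔ (P.XP j0 α i z).2 ∈ A := by
    intro z
    have h1 : decAt t j0 (i + 1) (ext (OV.name S α (2 ^ (j0 + i + 1)) z)) =
        (P.XP j0 α i z).2 := by
      have := vv_eq_decAt_ext t j0 S α (i + 1) z
      rw [vv_succ] at this
      exact this.symm
    rw [hU, Set.mem_ofPred_eq, h1]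
    exact Iff.rfl
  have hsub : P.Z (j0 + i + 1) ∩ {z | (P.XP j0 α i z).2 ∈ A} ⊆
      (P.M0ᶜ ∪ ((P.Z (j0 + i + 1) ∩ P.M0) \ G)) ∪
        (G ∩ {z | OV.name S α (2 ^ (j0 + i + 1)) z ∈ U}) := by
    rintro z ⟨hz1, hz2⟩
    by_cases hzM : z ∈ P.M0
    · by_cases hzG : z ∈ G
      · right; exact ⟨hzG, (hname z).2 hz2⟩
      · left; right; exact ⟨⟨hz1, hzM⟩, hzG⟩
    · left; left; exact hzM
  have hle : ν (P.Z (j0 + i + 1) ∩ {z | (P.XP j0 α i z).2 ∈ A}) ≤
      ν ((P.Z (j0 + i + 1) ∩ P.M0) \ G) + 2 * L U := by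
    refine (measure_mono hsub).trans ((measure_union_le _ _).trans ?_)
    refine add_le_add ?_ (hG2 U)
    refine (measure_union_le _ _).trans ?_
    rw [P.hM0null, zero_add]
  have hLU : (L U).toReal = ∑ v ∈ A, (L {u | decAt t j0 (i + 1) (ext u) = v}).toReal := by
    have h1 : U = ⋃ v ∈ A, {u | decAt t j0 (i + 1) (ext u) = v} := by
      ext u
      rw [hU, Set.mem_ofPred_eq, Set.mem_iUnion₂]
      constructor
      · intro h; exact ⟨_, h, rfl⟩
      · rintro ⟨v, hv, h⟩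
        have h' : decAt t j0 (i + 1) (ext u) = v := h
        rw [h']; exact hv
    rw [h1]
    have := measureReal_biUnion_finset (μ := L) (s := A)
      (f := fun v => {u : Fin (2 ^ (j0 + i + 1)) → s.W 0 | decAt t j0 (i + 1) (ext u) = v})
      (by
        intro a _ b _ hab
        rw [Function.onFun, Set.disjoint_left]
        intro u hu1 hu2
        exact hab ((show decAt t j0 (i + 1) (ext u) = a from hu1).symm.trans hu2))
      (fun v _ => (Set.toFinite _).measurableSet)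
    exact this
  have hLfin : L U ≠ ∞ := measure_ne_top _ _
  have hreal : ν.real (P.Z (j0 + i + 1) ∩ {z | (P.XP j0 α i z).2 ∈ A}) ≤
      ν.real ((P.Z (j0 + i + 1) ∩ P.M0) \ G) + 2 * (L U).toReal := by
    have h1 := ENNReal.toReal_mono (by
      exact ENNReal.add_ne_top.2 ⟨measure_ne_top _ _, ENNReal.mul_ne_top (by simp) hLfin⟩) hle
    rw [ENNReal.toReal_add (measure_ne_top _ _) (ENNReal.mul_ne_top (by simp) hLfin),
      ENNReal.toReal_mul] at h1
    simpa [measureReal_def] using h1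
  have hG1' : 2 ^ (j0 + i + 1) * ν.real ((P.Z (j0 + i + 1) ∩ P.M0) \ G) ≤ ε' := by
    have h1 := ENNReal.toReal_mono (by simp) hG1
    rw [ENNReal.toReal_mul, ENNReal.toReal_ofReal hε] at h1
    simpa [measureReal_def] using h1
  rw [← hLU]
  have h2 : (0 : ℝ) < 2 ^ (j0 + i + 1) := by positivity
  have h3 := mul_le_mul_of_nonneg_left hreal h2.le
  have h4 : (2 : ℝ) ^ (j0 + i + 2) = 2 ^ (j0 + i + 1) * 2 := by ring
  rw [h4]
  linarith

/-- the index set of the data of one level step -/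
theorem level_step {s : Sched} {t : s.Rels} {M : Type} [MeasurableSpace M] {ν : Measure M}
    {S : M → M} (P : Phased s t ν S) [IsFiniteMeasure ν] (hS : MeasurePreserving S ν ν)
    {α : M → s.W 0} (hα : Measurable α) (j0 i m0 : ℕ)
    {G : Set M} (hG : MeasurableSet G) {ε' : ℝ} (hε : 0 ≤ ε')
    (L : Measure (Fin (2 ^ (j0 + i + 1)) → s.W 0)) (hL : L Set.univ ≤ 1)
    (hG1 : (2 ^ (j0 + i + 1) : ℝ≥0∞) * ν ((P.Z (j0 + i + 1) ∩ P.M0) \ G) ≤ ENNReal.ofReal ε')
    (hG2 : ∀ U : Set (Fin (2 ^ (j0 + i + 1)) → s.W 0),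
      ν (G ∩ {z | OV.name S α (2 ^ (j0 + i + 1)) z ∈ U}) ≤ 2 * L U)
    (hnn : ∑ v, ∑ w, (if near t j0 m0 i w v then 0 else P.mi j0 α i w v) ≤ 1 / 50)
    (k1 k2 : s.W (j0 + i) → VT (s.W j0) i → ℝ)
    (hk1 : k1 = A874.rnd (near t j0 m0 i) (2 ^ (2 * s.κ (j0 + i))) (ker (marg1 (P.lawP j0 α i))))
    (hk2 : k2 = A874.rnd (near t j0 m0 i) (2 ^ (2 * s.κ (j0 + i))) (ker (marg2 (P.lawP j0 α i))))
    (Lp : VT (s.W j0) i × VT (s.W j0) i → ℝ)
    (hLp : ∀ v, Lp v = (L {u | decAt t j0 (i + 1) (ext u) = v}).toReal)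
    (hκ : 2 ≤ s.κ (j0 + i)) {th Λ A : ℝ} (hth : 0 < th) (hΛ : 0 ≤ Λ)
    (hLam : ∑ w : s.W (j0 + i) × s.W (j0 + i), (if s.GRel (j0 + i) (t (j0 + i)) w.1 w.2 ∧
      Lam (near t j0 m0 i) k1 k2 Lp w ≤ th then Lam (near t j0 m0 i) k1 k2 Lp w else 0) ≤ A) :
    Hc (P.mi j0 α (i + 1)) ≤ 2 * Hc (P.mi j0 α i) -
      Λ * (1 - 1 / 25 - (2 ^ s.κ (j0 + i + 1) : ℝ)⁻¹ * 2 / th - ε' -
        2 ^ (j0 + i + 2) * A * Real.exp Λ) + Real.log 2 ∧
    (∑ w, Lam (near t j0 m0 i) k1 k2 Lp w ≤ 2) ∧ (∀ w, 0 ≤ Lam (near t j0 m0 i) k1 k2 Lp w) := by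
  classical
  have hnnμ := P.lawP_nonneg j0 α i
  have htot := P.sum_lawP hS hα j0 i
  have hM : 0 < 2 ^ (2 * s.κ (j0 + i)) := by positivity
  have hker1 := ker_nonneg (marg1 (P.lawP j0 α i)) (marg1_nonneg _ hnnμ)
  have hker2 := ker_nonneg (marg2 (P.lawP j0 α i)) (marg2_nonneg _ hnnμ)
  have hk1n : ∀ w v, 0 ≤ k1 w v := by
    intro w v; rw [hk1]; exact A874.rnd_nonneg _ _ _ _ _
  have hk2n : ∀ w v, 0 ≤ k2 w v := by
    intro w v; rw [hk2]; exact A874.rnd_nonneg _ _ _ _ _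
  have hLpn : ∀ v, 0 ≤ Lp v := by
    intro v; rw [hLp]; exact ENNReal.toReal_nonneg
  have : IsFiniteMeasure L := ⟨lt_of_le_of_lt hL (by simp)⟩
  -- total mass of `Lp`
  have hLpt : ∑ v, Lp v ≤ 1 := by
    simp_rw [hLp]
    have h1 := measureReal_biUnion_finset (μ := L) (s := (univ : Finset (VT (s.W j0) (i + 1))))
      (f := fun v => {u : Fin (2 ^ (j0 + i + 1)) → s.W 0 | decAt t j0 (i + 1) (ext u) = v})
      (by
        intro a _ b _ hab
        rw [Function.onFun, Set.disjoint_left]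
        intro u hu1 hu2
        exact hab ((show decAt t j0 (i + 1) (ext u) = a from hu1).symm.trans hu2))
      (fun v _ => (Set.toFinite _).measurableSet)
    have h2 : L.real (⋃ v ∈ (univ : Finset (VT (s.W j0) (i + 1))),
        {u : Fin (2 ^ (j0 + i + 1)) → s.W 0 | decAt t j0 (i + 1) (ext u) = v}) ≤ 1 := by
      have h3 : L.real Set.univ ≤ 1 := by
        rw [measureReal_def]
        exact ENNReal.toReal_le_of_le_ofReal zero_le_one (by simpa using hL)
      exact (measureReal_mono (Set.subset_univ _)).trans h3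
    rw [h1] at h2
    exact h2
  -- kernel masses
  have hcard : ((Fintype.card (s.W (j0 + i)) : ℕ) : ℝ) / ((2 ^ (2 * s.κ (j0 + i)) : ℕ) : ℝ) ≤ 1 / 4 := by
    rw [Fintype.card_fin]
    push_cast
    rw [two_mul, pow_add, ← div_div, div_self (by positivity)]
    rw [one_div, one_div]
    apply inv_anti₀ (by norm_num)
    calc (4 : ℝ) = 2 ^ 2 := by norm_num
      _ ≤ 2 ^ s.κ (j0 + i) := pow_le_pow_right₀ (by norm_num) hκ
  have hs1 : ∀ v, ∑ w, k1 w v ≤ 5 / 4 := by
    intro v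
    rw [hk1]
    have := A874.sum_rnd_le (near t j0 m0 i) hM (ker (marg1 (P.lawP j0 α i))) hker1
      (sum_ker_le_one _) v
    linarith
  have hs2 : ∀ v, ∑ w, k2 w v ≤ 5 / 4 := by
    intro v
    rw [hk2]
    have := A874.sum_rnd_le (near t j0 m0 i) hM (ker (marg2 (P.lawP j0 α i))) hker2
      (sum_ker_le_one _) v
    linarith
  have hT : ∑ w, Lam (near t j0 m0 i) k1 k2 Lp w ≤ 2 := by
    have := A874.sum_Lam_le (near t j0 m0 i) k1 k2 Lp hk1n hk2n hLpn hs1 hs2 hLpt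
    linarith
  have hLn : ∀ w, 0 ≤ Lam (near t j0 m0 i) k1 k2 Lp w := fun w =>
    A874.Lam_nonneg (near t j0 m0 i) k1 k2 Lp hk1n hk2n hLpn w
  refine ⟨?_, hT, hLn⟩
  rw [P.Hc_lawP j0 i α, ← P.avg_lawP hS hα j0 i]
  have hheavy := A874.heavy_le (Lam (near t j0 m0 i) k1 k2 Lp) hLn hth hT (P.lawP j0 α i)
    (P.sum_v_lawP_le hS hα j0 i) (by positivity)
  have hnear := near_pair (P.lawP j0 α i) hnnμ htot (near t j0 m0 i)
  rw [P.avg_lawP hS hα j0 i] at hnear
  have hnear' : 1 - 1 / 25 ≤ ∑ v : VT (s.W j0) i × VT (s.W j0) i,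
      ∑ w : s.W (j0 + i) × s.W (j0 + i),
        if near t j0 m0 i w.1 v.1 ∧ near t j0 m0 i w.2 v.2 then P.lawP j0 α i w v else 0 := by
    refine le_trans ?_ hnear
    linarith
  have hdom := P.dom hS hα j0 i hG hε L hL hG1 hG2
  have := level_ineq (P.lawP j0 α i) hnnμ htot
    (fun w => s.GRel (j0 + i) (t (j0 + i)) w.1 w.2)
    (fun w v hw => P.lawP_eq_zero j0 i α hw v) (near t j0 m0 i) k1 k2 Lp hLpn
    (fun w v h => by rw [hk1]; exact A874.le_rnd _ hM _ h)
    (fun w v h => by rw [hk2]; exact A874.le_rnd _ hM _ h)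
    (th := th) (A := A) (C := 2 ^ (j0 + i + 2)) (η₁ := 1 / 25)
    (η₂ := (2 ^ s.κ (j0 + i + 1) : ℝ)⁻¹ * 2 / th) (η₃ := ε') (Λ := Λ) (by positivity) hΛ
    hLam hnear' hheavy (fun A => by
      simp_rw [hLp]
      exact hdom A)
  exact this

end Phased

end Vale.Agent.P109.A424
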