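import Vale.Agent.P109.A424.Names
import Vale.Agent.P109.A874.Near
import Vale.Agent.P109.OV.Interface

/-!
# P109, block [A], (A-FAM) (helper874): the family of weights at level `j0 + i`
-/

open Finset MeasureTheory
open scoped ENNReal

namespace Vale.Agent.P109.A424

open H462 H462.Sched A874

variable {s : Sched}

/-- The law of the decoded name (two halves) under a law `L` of names of length `2 ^ (j+1)`. -/
noncomputable def LpOf (t : s.Rels) (j0 i : ℕ) (L : Measure (Fin (2 ^ (j0 + i + 1)) → s.W 0))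
    (v : VT (s.W j0) i × VT (s.W j0) i) : ℝ :=
  (L {u | decAt t j0 (i + 1) (ext u) = v}).toReal

theorem LpOf_nonneg (t : s.Rels) (j0 i : ℕ) (L : Measure (Fin (2 ^ (j0 + i + 1)) → s.W 0))
    (v : VT (s.W j0) i × VT (s.W j0) i) : 0 ≤ LpOf t j0 i L v := ENNReal.toReal_nonneg

theorem sum_LpOf (t : s.Rels) (j0 i : ℕ) (L : Measure (Fin (2 ^ (j0 + i + 1)) → s.W 0))
    (hL : L Set.univ ≤ 1) (A : Finset (VT (s.W j0) i × VT (s.W j0) i)) :
    ∑ v ∈ A, LpOf t j0 i L v = (L {u | decAt t j0 (i + 1) (ext u) ∈ A}).toReal := by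
  classical
  have : IsFiniteMeasure L := ⟨lt_of_le_of_lt hL ENNReal.one_lt_top⟩
  unfold LpOf
  rw [← ENNReal.toReal_sum (fun v _ => measure_ne_top _ _)]
  congr 1
  rw [← measure_biUnion_finset]
  · congr 1
    ext u
    simp only [Set.mem_iUnion, Set.mem_ofPred_eq, exists_prop]
    constructor
    · rintro ⟨v, hv, h⟩; rw [h]; exact hv
    · intro h; exact ⟨_, h, rfl⟩
  · intro v _ v' _ hvv'
    rw [Function.onFun, Set.disjoint_left]
    intro u h1 h2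
    exact hvv' (h1.symm.trans h2)
  · intro v _
    exact (Set.toFinite _).measurableSet

/-- Near relation with the fixed tolerance `2 ^ j0 / 500`. -/
noncomputable abbrev nr (t : s.Rels) (j0 i : ℕ) : s.W (j0 + i) → VT (s.W j0) i → Prop :=
  near t j0 (2 ^ j0 / 500) i

/-- The threshold `2 ^ (-1.9 κ_j)`. -/
noncomputable def thr (s : Sched) (j : ℕ) : ℝ := (2 : ℝ) ^ (-(19 / 10 : ℝ) * s.κ j)

theorem thr_pos (s : Sched) (j : ℕ) : 0 < thr s j := Real.rpow_pos_of_pos (by norm_num) _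

open Classical in
/-- The truncated weights. -/
noncomputable def wt (t : s.Rels) (j0 i : ℕ) (L : Measure (Fin (2 ^ (j0 + i + 1)) → s.W 0))
    (k1 k2 : s.W (j0 + i) → VT (s.W j0) i → ℝ) (w w' : s.W (j0 + i)) : ℝ :=
  if Ent.Lam (nr t j0 i) k1 k2 (LpOf t j0 i L) (w, w') ≤ thr s (j0 + i) then
    Ent.Lam (nr t j0 i) k1 k2 (LpOf t j0 i L) (w, w') else 0

/-- The kernels used: multiples of `2 ^ (-2 κ_j)` on near pairs. -/
noncomputable def kers (t : s.Rels) (j0 i : ℕ) : Finset (s.W (j0 + i) → VT (s.W j0) i → ℝ) :=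
  kerFam (nr t j0 i) (2 ^ (2 * s.κ (j0 + i)))

/-- The family of weights at level `j0 + i`. -/
def famSet (Fam : OV.Family (s.W 0)) (c : ℕ → ℕ) (j0 i : ℕ) (t : s.Rels) :
    Set (s.W (j0 + i) → s.W (j0 + i) → ℝ) :=
  {Λ | ∃ N ≤ j0 + i, (s.κ (j0 + i) + 2 ^ (j0 + i + 1) + 2) ^ c N ≤ 2 ^ (s.κ (j0 + i) / 4) ∧
    ∃ L ∈ Fam N (s.κ (j0 + i)) (2 ^ (j0 + i + 1)), ∃ k1 ∈ kers t j0 i, ∃ k2 ∈ kers t j0 i,
      Λ = wt t j0 i L k1 k2}

theorem famSet_congr (Fam : OV.Family (s.W 0)) (c : ℕ → ℕ) (j0 i : ℕ) {t t' : s.Rels}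
    (h : ∀ l < j0 + i, t l = t' l) : famSet Fam c j0 i t = famSet Fam c j0 i t' := by
  have hn : nr t j0 i = nr t' j0 i := near_congr_rels _ i h
  have hd : decAt t j0 (i + 1) = decAt t' j0 (i + 1) :=
    decAt_congr_rels (fun l hl => h l (by omega)) _
  have hL : LpOf t j0 i = LpOf t' j0 i := by
    funext L v; unfold LpOf; rw [hd]
  have hk : kers t j0 i = kers t' j0 i := by unfold kers; rw [hn]
  have hw : wt t j0 i = wt t' j0 i := by
    funext L k1 k2 w w'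
    unfold wt
    rw [hL]
    have : Ent.Lam (nr t j0 i) k1 k2 (LpOf t' j0 i L) = Ent.Lam (nr t' j0 i) k1 k2 (LpOf t' j0 i L) := by
      unfold Ent.Lam
      funext p
      refine Finset.sum_congr rfl fun v _ => ?_
      have h1 : nr t j0 i p.1 v.1 = nr t' j0 i p.1 v.1 := by rw [hn]
      have h2 : nr t j0 i p.2 v.2 = nr t' j0 i p.2 v.2 := by rw [hn]
      simp only [h1, h2]
    rw [this]
  unfold famSet
  rw [hk, hw]

theorem kers_nonneg {t : s.Rels} {j0 i : ℕ} {k : s.W (j0 + i) → VT (s.W j0) i → ℝ}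
    (hk : k ∈ kers t j0 i) (w : s.W (j0 + i)) (v : VT (s.W j0) i) : 0 ≤ k w v := by
  unfold kers kerFam at hk
  rw [mem_image] at hk
  obtain ⟨g, _, rfl⟩ := hk
  dsimp only
  split_ifs <;> positivity

theorem wt_nonneg {t : s.Rels} {j0 i : ℕ} (L : Measure (Fin (2 ^ (j0 + i + 1)) → s.W 0))
    {k1 k2 : s.W (j0 + i) → VT (s.W j0) i → ℝ} (h1 : k1 ∈ kers t j0 i) (h2 : k2 ∈ kers t j0 i)
    (w w' : s.W (j0 + i)) : 0 ≤ wt t j0 i L k1 k2 w w' := by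
  unfold wt
  split_ifs
  · exact Lam_nonneg _ _ _ _ (kers_nonneg h1) (kers_nonneg h2) (LpOf_nonneg t j0 i L) _
  · exact le_rfl

theorem wt_le {t : s.Rels} {j0 i : ℕ} (L : Measure (Fin (2 ^ (j0 + i + 1)) → s.W 0))
    (k1 k2 : s.W (j0 + i) → VT (s.W j0) i → ℝ) 
    (w w' : s.W (j0 + i)) : wt t j0 i L k1 k2 w w' ≤ thr s (j0 + i) := by
  unfold wt
  split_ifs with h
  · exact h
  · exact (thr_pos s _).le

theorem famSet_bounds {Fam : OV.Family (s.W 0)} {c : ℕ → ℕ} {j0 i : ℕ} {t : s.Rels}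
    {Λ : s.W (j0 + i) → s.W (j0 + i) → ℝ} (h : Λ ∈ famSet Fam c j0 i t) (w w' : s.W (j0 + i)) :
    0 ≤ Λ w w' ∧ Λ w w' ≤ thr s (j0 + i) := by
  obtain ⟨N, _, _, L, _, k1, h1, k2, h2, rfl⟩ := h
  exact ⟨wt_nonneg L h1 h2 w w', wt_le L k1 k2 w w'⟩

/-! ### Counting -/

theorem two_rpow_nat (n : ℕ) : (2 : ℝ) ^ (n : ℝ) = (2 : ℝ) ^ n := Real.rpow_natCast _ _

/-- Lists of codewords of level `j0` in a ball of radius `2 ^ j0 / 500` around a codeword. -/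
theorem list_le {t : s.Rels} {j0 : ℕ} (hlist : s.ListProp t j0 (1 / 100)) (w : s.W j0) :
    ((univ.filter (fun v : s.W j0 =>
      mis (s.spell t j0 w) (s.spell t j0 v) ≤ 2 ^ j0 / 500)).card : ℝ) ≤
      (2 : ℝ) ^ ((3 / 250 : ℝ) * s.κ j0) := by
  have h1 := hlist (s.spell t j0 w) (2 ^ j0 / 500)
  have h2 : (univ.filter (fun v : s.W j0 =>
      mis (s.spell t j0 w) (s.spell t j0 v) ≤ 2 ^ j0 / 500)) =
      (univ.filter (fun v : s.W j0 => mis (s.spell t j0 v) (s.spell t j0 w) ≤ 2 ^ j0 / 500)) := by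
    ext v
    rw [mem_filter, mem_filter, mis_comm]
  rw [h2]
  refine h1.trans (Real.rpow_le_rpow_of_exponent_le (by norm_num) ?_)
  have h3 : (((2 ^ j0 / 500 : ℕ) : ℝ)) / 2 ^ j0 ≤ 1 / 500 := by
    rw [div_le_iff₀ (by positivity)]
    have : ((2 ^ j0 / 500 : ℕ) : ℝ) ≤ ((2 ^ j0 : ℕ) : ℝ) / 500 := Nat.cast_div_le
    push_cast at this
    linarith
  have hk : (0 : ℝ) ≤ s.κ j0 := by positivity
  nlinarith

/-- Number of near pairs: at most `2 ^ (1.144 κ_j)`. -/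
theorem card_near_pairs_le {t : s.Rels} {j0 i : ℕ} (hlist : s.ListProp t j0 (1 / 100))
    (h1 : s.κ j0 * 2 ^ i ≤ 2 * s.κ (j0 + i)) (h2 : 100 ≤ s.κ j0) :
    ((univ.filter fun p : s.W (j0 + i) × VT (s.W j0) i => nr t j0 i p.1 p.2).card : ℝ) ≤
      (2 : ℝ) ^ ((143 / 125 : ℝ) * s.κ (j0 + i)) := by
  classical
  have e1 : (univ.filter fun p : s.W (j0 + i) × VT (s.W j0) i => nr t j0 i p.1 p.2).card =
      ∑ w : s.W (j0 + i), (univ.filter fun v : VT (s.W j0) i => nr t j0 i w v).card := by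
    rw [card_filter, Fintype.sum_prod_type]
    refine Finset.sum_congr rfl fun w _ => ?_
    rw [card_filter]
  have hℓ : (0 : ℝ) ≤ (2 : ℝ) ^ ((3 / 250 : ℝ) * s.κ j0) := by positivity
  have hℓ1 : (1 : ℝ) ≤ (2 : ℝ) ^ ((3 / 250 : ℝ) * s.κ j0) :=
    Real.one_le_rpow (by norm_num) (by positivity)
  have hb : ∀ w : s.W (j0 + i),
      ((univ.filter fun v : VT (s.W j0) i => nr t j0 i w v).card : ℝ) ≤
        (2 : ℝ) ^ ((18 / 125 : ℝ) * s.κ (j0 + i)) := by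
    intro w
    refine (card_near_le (t := t) (j0 := j0) (2 ^ j0 / 500) hℓ (list_le hlist) i w).trans ?_
    have h3 : ((2 : ℝ) ^ ((3 / 250 : ℝ) * s.κ j0) + 1) ^ 2 ^ i ≤
        (2 : ℝ) ^ (((3 / 250 : ℝ) * s.κ j0 + 1) * 2 ^ i) := by
      have : (2 : ℝ) ^ ((3 / 250 : ℝ) * s.κ j0) + 1 ≤ (2 : ℝ) ^ ((3 / 250 : ℝ) * s.κ j0 + 1) := by
        rw [Real.rpow_add (by norm_num), Real.rpow_one]; linarith
      calc ((2 : ℝ) ^ ((3 / 250 : ℝ) * s.κ j0) + 1) ^ 2 ^ i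
          ≤ ((2 : ℝ) ^ ((3 / 250 : ℝ) * s.κ j0 + 1)) ^ 2 ^ i :=
            pow_le_pow_left₀ (by positivity) this _
        _ = _ := by
            rw [← Real.rpow_natCast, ← Real.rpow_mul (by norm_num)]
            push_cast
            rfl
    calc (2 : ℝ) ^ ((s.κ j0 : ℝ) * 2 ^ i / 20) * ((2 : ℝ) ^ ((3 / 250 : ℝ) * s.κ j0) + 1) ^ 2 ^ i
        ≤ (2 : ℝ) ^ ((s.κ j0 : ℝ) * 2 ^ i / 20) *
            (2 : ℝ) ^ (((3 / 250 : ℝ) * s.κ j0 + 1) * 2 ^ i) :=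
          mul_le_mul_of_nonneg_left h3 (by positivity)
      _ = (2 : ℝ) ^ ((s.κ j0 : ℝ) * 2 ^ i / 20 + ((3 / 250 : ℝ) * s.κ j0 + 1) * 2 ^ i) := by
          rw [Real.rpow_add (by norm_num)]
      _ ≤ _ := by
          refine Real.rpow_le_rpow_of_exponent_le (by norm_num) ?_
          have h1' : (s.κ j0 : ℝ) * 2 ^ i ≤ 2 * s.κ (j0 + i) := by exact_mod_cast h1
          have h2' : (100 : ℝ) ≤ s.κ j0 := by exact_mod_cast h2
          have h3' : (100 : ℝ) * 2 ^ i ≤ s.κ j0 * 2 ^ i :=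
            mul_le_mul_of_nonneg_right h2' (by positivity)
          nlinarith
  rw [e1]
  push_cast
  calc ∑ w : s.W (j0 + i), ((univ.filter fun v : VT (s.W j0) i => nr t j0 i w v).card : ℝ)
      ≤ ∑ _w : s.W (j0 + i), (2 : ℝ) ^ ((18 / 125 : ℝ) * s.κ (j0 + i)) :=
        Finset.sum_le_sum fun w _ => hb w
    _ = (2 : ℝ) ^ (s.κ (j0 + i) : ℝ) * (2 : ℝ) ^ ((18 / 125 : ℝ) * s.κ (j0 + i)) := by
        rw [Finset.sum_const, card_univ, Fintype.card_fin, nsmul_eq_mul, two_rpow_nat]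
        push_cast
        rfl
    _ = _ := by
        rw [← Real.rpow_add (by norm_num)]
        congr 1
        ring


/-- The finite set of laws used at level `j`. -/
theorem exists_lawFinset {Fam : OV.Family (s.W 0)} {c : ℕ → ℕ}
    (hF : ∀ N B n, (Fam N B n).Finite ∧ (Fam N B n).ncard ≤ 2 ^ ((B + n + 2) ^ c N * 2 ^ (B / 2)))
    (j : ℕ) : ∃ F : Finset (Measure (Fin (2 ^ (j + 1)) → s.W 0)),
      (∀ N ≤ j, (s.κ j + 2 ^ (j + 1) + 2) ^ c N ≤ 2 ^ (s.κ j / 4) →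
        ∀ L ∈ Fam N (s.κ j) (2 ^ (j + 1)), L ∈ F) ∧
      F.card ≤ (j + 1) * 2 ^ (2 ^ (s.κ j / 4) * 2 ^ (s.κ j / 2)) := by
  classical
  refine ⟨((range (j + 1)).filter fun N =>
    (s.κ j + 2 ^ (j + 1) + 2) ^ c N ≤ 2 ^ (s.κ j / 4)).biUnion
      fun N => (hF N (s.κ j) (2 ^ (j + 1))).1.toFinset, ?_, ?_⟩
  · intro N hN hc L hL
    rw [mem_biUnion]
    exact ⟨N, mem_filter.2 ⟨mem_range.2 (by omega), hc⟩, (Set.Finite.mem_toFinset _).2 hL⟩
  · refine card_biUnion_le.trans ?_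
    calc ∑ N ∈ (range (j + 1)).filter fun N =>
          (s.κ j + 2 ^ (j + 1) + 2) ^ c N ≤ 2 ^ (s.κ j / 4),
          ((hF N (s.κ j) (2 ^ (j + 1))).1.toFinset).card
        ≤ ∑ N ∈ (range (j + 1)).filter fun N =>
          (s.κ j + 2 ^ (j + 1) + 2) ^ c N ≤ 2 ^ (s.κ j / 4),
            2 ^ (2 ^ (s.κ j / 4) * 2 ^ (s.κ j / 2)) := by
          refine Finset.sum_le_sum fun N hN => ?_
          rw [← Set.ncard_eq_toFinset_card _ (hF N (s.κ j) (2 ^ (j + 1))).1]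
          refine (hF N (s.κ j) (2 ^ (j + 1))).2.trans ?_
          refine Nat.pow_le_pow_right (by norm_num) ?_
          exact Nat.mul_le_mul_right _ (mem_filter.1 hN).2
      _ ≤ (j + 1) * 2 ^ (2 ^ (s.κ j / 4) * 2 ^ (s.κ j / 2)) := by
          rw [Finset.sum_const, smul_eq_mul]
          refine Nat.mul_le_mul_right _ ?_
          refine (card_filter_le _ _).trans ?_
          rw [card_range]

/-- Numerical estimate. -/
theorem numeric_aux {a : ℝ} (ha : 1000 ≤ a) : 4 * a + 2 ≤ (2 : ℝ) ^ ((1 / 10 : ℝ) * a) := by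
  have h1 : a / 40 ≤ (2 : ℝ) ^ (a / 20) := by
    have h2 : a / 20 * Real.log 2 + 1 ≤ Real.exp (a / 20 * Real.log 2) := Real.add_one_le_exp _
    have h3 : (2 : ℝ) ^ (a / 20) = Real.exp (a / 20 * Real.log 2) := by
      rw [Real.rpow_def_of_pos (by norm_num)]; ring_nf
    have h4 : (0.5 : ℝ) ≤ Real.log 2 := by have := Real.log_two_gt_d9; linarith
    rw [h3]
    nlinarith
  have h5 : (2 : ℝ) ^ (8 : ℝ) ≤ (2 : ℝ) ^ (a / 20) :=
    Real.rpow_le_rpow_of_exponent_le (by norm_num) (by linarith)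
  have h6 : (2 : ℝ) ^ (8 : ℝ) = 256 := by
    rw [show (8 : ℝ) = ((8 : ℕ) : ℝ) by norm_num, Real.rpow_natCast]; norm_num
  have h7 : (2 : ℝ) ^ ((1 / 10 : ℝ) * a) = (2 : ℝ) ^ (a / 20) * (2 : ℝ) ^ (a / 20) := by
    rw [← Real.rpow_add (by norm_num)]; congr 1; ring
  rw [h7]
  rw [h6] at h5
  nlinarith

/-- **Finiteness and cardinality of the family.** -/
theorem famSet_finite {Fam : OV.Family (s.W 0)} {c : ℕ → ℕ}
    (hF : ∀ N B n, (Fam N B n).Finite ∧ (Fam N B n).ncard ≤ 2 ^ ((B + n + 2) ^ c N * 2 ^ (B / 2)))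
    (j0 i : ℕ) (t : s.Rels) : (famSet Fam c j0 i t).Finite ∧
      (famSet Fam c j0 i t).ncard ≤
        (j0 + i + 1) * 2 ^ (2 ^ (s.κ (j0 + i) / 4) * 2 ^ (s.κ (j0 + i) / 2)) *
          ((kers t j0 i).card * (kers t j0 i).card) := by
  classical
  obtain ⟨F, hF1, hF2⟩ := exists_lawFinset hF (j0 + i)
  have hsub : famSet Fam c j0 i t ⊆
      ((F ×ˢ (kers t j0 i ×ˢ kers t j0 i)).image (fun p => wt t j0 i p.1 p.2.1 p.2.2) :
        Finset (s.W (j0 + i) → s.W (j0 + i) → ℝ)) := by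
    rintro Λ ⟨N, hN, hc, L, hL, k1, h1, k2, h2, rfl⟩
    rw [mem_coe, mem_image]
    exact ⟨(L, k1, k2), by simp [hF1 N hN hc L hL, h1, h2], rfl⟩
  refine ⟨(Finset.finite_toSet _).subset hsub, ?_⟩
  calc (famSet Fam c j0 i t).ncard ≤ _ := Set.ncard_le_ncard hsub (Finset.finite_toSet _)
    _ = ((F ×ˢ (kers t j0 i ×ˢ kers t j0 i)).image
          (fun p => wt t j0 i p.1 p.2.1 p.2.2)).card := Set.ncard_coe_finset _
    _ ≤ (F ×ˢ (kers t j0 i ×ˢ kers t j0 i)).card := card_image_le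
    _ = F.card * ((kers t j0 i).card * (kers t j0 i).card) := by
        rw [card_product, card_product]
    _ ≤ _ := Nat.mul_le_mul_right _ hF2

theorem famSet_ncard_le {Fam : OV.Family (s.W 0)} {c : ℕ → ℕ}
    (hF : ∀ N B n, (Fam N B n).Finite ∧ (Fam N B n).ncard ≤ 2 ^ ((B + n + 2) ^ c N * 2 ^ (B / 2)))
    (j0 i : ℕ) (t : s.Rels) (hlist : s.ListProp t j0 (1 / 100))
    (h1 : s.κ j0 * 2 ^ i ≤ 2 * s.κ (j0 + i)) (h2 : 100 ≤ s.κ j0)
    (h3 : 1000 * s.lam (j0 + i) ≤ s.κ (j0 + i)) (h4 : 1000 ≤ s.κ (j0 + i))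
    (h5 : j0 + i + 1 ≤ s.κ (j0 + i)) :
    ((famSet Fam c j0 i t).ncard : ℝ) ≤
      Real.exp (4 / ((2 : ℝ) ^ (2 * s.lam (j0 + i)) * thr s (j0 + i)) - 1) := by
  classical
  set a : ℕ := s.κ (j0 + i) with ha
  set Nn : ℕ := (univ.filter fun p : s.W (j0 + i) × VT (s.W j0) i => nr t j0 i p.1 p.2).card with hNn
  have hNn' : (Nn : ℝ) ≤ (2 : ℝ) ^ ((143 / 125 : ℝ) * a) := card_near_pairs_le hlist h1 h2
  have hk : (kers t j0 i).card ≤ (2 ^ (2 * a + 1)) ^ Nn := by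
    refine (card_kerFam_le (nr t j0 i) (2 ^ (2 * a))).trans ?_
    refine Nat.pow_le_pow_left ?_ _
    rw [pow_succ]
    have : 1 ≤ 2 ^ (2 * a) := Nat.one_le_two_pow
    omega
  have hT : (famSet Fam c j0 i t).ncard ≤
      2 ^ (a + 2 ^ (a / 4) * 2 ^ (a / 2) + 2 * ((2 * a + 1) * Nn)) := by
    refine (famSet_finite hF j0 i t).2.trans ?_
    calc (j0 + i + 1) * 2 ^ (2 ^ (a / 4) * 2 ^ (a / 2)) * ((kers t j0 i).card * (kers t j0 i).card)
        ≤ 2 ^ a * 2 ^ (2 ^ (a / 4) * 2 ^ (a / 2)) * ((2 ^ (2 * a + 1)) ^ Nn * (2 ^ (2 * a + 1)) ^ Nn) := by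
          refine Nat.mul_le_mul (Nat.mul_le_mul_right _ ?_) (Nat.mul_le_mul hk hk)
          exact h5.trans Nat.lt_two_pow_self.le
      _ = _ := by
          rw [← pow_mul, ← pow_add, ← pow_add, ← pow_add]
          ring
  have ha' : (1000 : ℝ) ≤ a := by exact_mod_cast h4
  set X : ℝ := (2 : ℝ) ^ ((5 / 4 : ℝ) * a) with hX
  have hX1 : 1 ≤ X := Real.one_le_rpow (by norm_num) (by positivity)
  -- the exponent
  have hE : ((a + 2 ^ (a / 4) * 2 ^ (a / 2) + 2 * ((2 * a + 1) * Nn) : ℕ) : ℝ) ≤ 3 * X := by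
    have e1 : (a : ℝ) ≤ X := by
      have : (a : ℝ) ≤ (2 : ℝ) ^ (a : ℝ) := by
        rw [two_rpow_nat]
        exact_mod_cast Nat.lt_two_pow_self.le
      exact this.trans (Real.rpow_le_rpow_of_exponent_le (by norm_num) (by nlinarith))
    have e2 : ((2 ^ (a / 4) * 2 ^ (a / 2) : ℕ) : ℝ) ≤ X := by
      rw [← pow_add]
      push_cast
      rw [← two_rpow_nat]
      refine Real.rpow_le_rpow_of_exponent_le (by norm_num) ?_
      have h6 : ((a / 4 : ℕ) : ℝ) ≤ (a : ℝ) / 4 := Nat.cast_div_le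
      have h7 : ((a / 2 : ℕ) : ℝ) ≤ (a : ℝ) / 2 := Nat.cast_div_le
      push_cast
      nlinarith
    have e3 : (4 * (a : ℝ) + 2) * Nn ≤ X := by
      calc (4 * (a : ℝ) + 2) * Nn ≤ (2 : ℝ) ^ ((1 / 10 : ℝ) * a) * (2 : ℝ) ^ ((143 / 125 : ℝ) * a) :=
            mul_le_mul (numeric_aux ha') hNn' (by positivity) (by positivity)
        _ = (2 : ℝ) ^ ((1 / 10 : ℝ) * a + (143 / 125 : ℝ) * a) := by
            rw [Real.rpow_add (by norm_num)]
        _ ≤ X := Real.rpow_le_rpow_of_exponent_le (by norm_num) (by nlinarith)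
    push_cast at e2 ⊢
    nlinarith
  have hlog : Real.log 2 ≤ 1 := by have := Real.log_two_lt_d9; linarith
  have hlog0 : 0 ≤ Real.log 2 := Real.log_nonneg (by norm_num)
  calc ((famSet Fam c j0 i t).ncard : ℝ)
      ≤ ((2 ^ (a + 2 ^ (a / 4) * 2 ^ (a / 2) + 2 * ((2 * a + 1) * Nn)) : ℕ) : ℝ) := by
        exact_mod_cast hT
    _ = Real.exp (Real.log 2 * ((a + 2 ^ (a / 4) * 2 ^ (a / 2) + 2 * ((2 * a + 1) * Nn) : ℕ) : ℝ)) := by
        rw [← Real.rpow_def_of_pos (by norm_num), Real.rpow_natCast]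
        push_cast
        rfl
    _ ≤ Real.exp (4 / ((2 : ℝ) ^ (2 * s.lam (j0 + i)) * thr s (j0 + i)) - 1) := by
        refine Real.exp_le_exp.2 ?_
        have h8 : Real.log 2 * ((a + 2 ^ (a / 4) * 2 ^ (a / 2) + 2 * ((2 * a + 1) * Nn) : ℕ) : ℝ) ≤
            3 * X := by
          refine le_trans ?_ hE
          exact mul_le_of_le_one_left (by positivity) hlog
        have h9 : 4 * X ≤ 4 / ((2 : ℝ) ^ (2 * s.lam (j0 + i)) * thr s (j0 + i)) := by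
          rw [le_div_iff₀ (mul_pos (by positivity) (thr_pos s _))]
          have h10 : X * ((2 : ℝ) ^ (2 * s.lam (j0 + i)) * thr s (j0 + i)) ≤ 1 := by
            unfold thr
            rw [← two_rpow_nat, ← Real.rpow_add (by norm_num), hX, ← Real.rpow_add (by norm_num)]
            refine Real.rpow_le_one_of_one_le_of_nonpos (by norm_num) ?_
            have h11 : (1000 : ℝ) * s.lam (j0 + i) ≤ a := by exact_mod_cast h3
            push_cast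
            nlinarith
          linarith
        linarith

/-- For a nonnegative law `f`, the rounded conditional kernel. -/
theorem exists_kernel (t : s.Rels) (j0 i : ℕ) (f : s.W (j0 + i) → VT (s.W j0) i → ℝ)
    (hf : ∀ w v, 0 ≤ f w v) : ∃ k ∈ kers t j0 i,
      (∀ w v, nr t j0 i w v → Ent.ker f w v ≤ k w v) ∧
      ∀ v, ∑ w, k w v ≤ 1 + (2 : ℝ) ^ (-(s.κ (j0 + i) : ℝ)) := by
  have hM : 0 < 2 ^ (2 * s.κ (j0 + i)) := by positivity
  have h0 := Ent.ker_nonneg f hf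
  have h1 : ∀ w v, Ent.ker f w v ≤ 1 := fun w v =>
    (Finset.single_le_sum (f := fun w => Ent.ker f w v) (fun w _ => h0 w v) (mem_univ w)).trans
      (Ent.sum_ker_le_one f v)
  refine ⟨rnd (nr t j0 i) (2 ^ (2 * s.κ (j0 + i))) (Ent.ker f), rnd_mem _ _ h1,
    fun w v h => le_rnd _ hM _ h, fun v => ?_⟩
  refine (sum_rnd_le _ hM _ h0 (Ent.sum_ker_le_one f) v).trans (le_of_eq ?_)
  congr 1
  rw [Fintype.card_fin, Real.rpow_neg (by norm_num), two_rpow_nat]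
  push_cast
  rw [two_mul, pow_add]
  field_simp

/-- Total mass of the weights. -/
theorem sum_Lam_le_two (t : s.Rels) (j0 i : ℕ) (L : Measure (Fin (2 ^ (j0 + i + 1)) → s.W 0))
    (hL : L Set.univ ≤ 1) (hκ : 2 ≤ s.κ (j0 + i))
    {k1 k2 : s.W (j0 + i) → VT (s.W j0) i → ℝ} (h1 : k1 ∈ kers t j0 i) (h2 : k2 ∈ kers t j0 i)
    (h1' : ∀ v, ∑ w, k1 w v ≤ 1 + (2 : ℝ) ^ (-(s.κ (j0 + i) : ℝ)))
    (h2' : ∀ v, ∑ w, k2 w v ≤ 1 + (2 : ℝ) ^ (-(s.κ (j0 + i) : ℝ))) :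
    ∑ p, Ent.Lam (nr t j0 i) k1 k2 (LpOf t j0 i L) p ≤ 2 := by
  have hLp : ∑ v, LpOf t j0 i L v ≤ 1 := by
    rw [sum_LpOf t j0 i L hL]
    refine ENNReal.toReal_le_of_le_ofReal zero_le_one ?_
    rw [ENNReal.ofReal_one]
    exact (measure_mono (Set.subset_univ _)).trans hL
  refine (sum_Lam_le (nr t j0 i) k1 k2 _ (kers_nonneg h1) (kers_nonneg h2)
    (LpOf_nonneg t j0 i L) h1' h2' hLp).trans ?_
  have h3 : (2 : ℝ) ^ (-(s.κ (j0 + i) : ℝ)) ≤ 1 / 4 := by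
    have : (2 : ℝ) ^ (-(s.κ (j0 + i) : ℝ)) ≤ (2 : ℝ) ^ (-(2 : ℝ)) := by
      refine Real.rpow_le_rpow_of_exponent_le (by norm_num) ?_
      have : (2 : ℝ) ≤ s.κ (j0 + i) := by exact_mod_cast hκ
      linarith
    refine this.trans (le_of_eq ?_)
    rw [Real.rpow_neg (by norm_num), show (2 : ℝ) = ((2 : ℕ) : ℝ) by norm_num, Real.rpow_natCast]
    norm_num
  have h4 : 0 ≤ (2 : ℝ) ^ (-(s.κ (j0 + i) : ℝ)) := by positivity
  nlinarith

theorem sum_wt_le_two (t : s.Rels) (j0 i : ℕ) (L : Measure (Fin (2 ^ (j0 + i + 1)) → s.W 0))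
    (hL : L Set.univ ≤ 1) (hκ : 2 ≤ s.κ (j0 + i))
    {k1 k2 : s.W (j0 + i) → VT (s.W j0) i → ℝ} (h1 : k1 ∈ kers t j0 i) (h2 : k2 ∈ kers t j0 i)
    (h1' : ∀ v, ∑ w, k1 w v ≤ 1 + (2 : ℝ) ^ (-(s.κ (j0 + i) : ℝ)))
    (h2' : ∀ v, ∑ w, k2 w v ≤ 1 + (2 : ℝ) ^ (-(s.κ (j0 + i) : ℝ))) :
    ∑ w, ∑ w', wt t j0 i L k1 k2 w w' ≤ 2 := by
  refine le_trans ?_ (sum_Lam_le_two t j0 i L hL hκ h1 h2 h1' h2')
  rw [Fintype.sum_prod_type]
  refine Finset.sum_le_sum fun w _ => Finset.sum_le_sum fun w' _ => ?_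
  unfold wt
  split_ifs
  · exact le_rfl
  · exact Lam_nonneg _ _ _ _ (kers_nonneg h1) (kers_nonneg h2) (LpOf_nonneg t j0 i L) _

end Vale.Agent.P109.A424
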