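import Mathlib
import Vale.Agent.P109.R996.Level

/-!
# P109, block [A] (helper424): subadditivity of the conditional entropy
-/

open Finset

namespace Vale.Agent.P109.Ent

variable {W V : Type*} [Fintype W] [Fintype V]

/-- `H(w₁w₂ | v₁v₂) ≤ H(w₁|v₁) + H(w₂|v₂)`. -/
theorem Hc_le_marg (μ : W × W → V × V → ℝ) (h : ∀ w v, 0 ≤ μ w v) :
    Hc μ ≤ Hc (marg1 μ) + Hc (marg2 μ) := by
  classical
  set q : (V × V) × (W × W) → ℝ := fun x =>
    (∑ w, μ w x.1) * (ker (marg1 μ) x.2.1 x.1.1 * ker (marg2 μ) x.2.2 x.1.2) with hq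
  have hk1 := ker_nonneg (marg1 μ) (marg1_nonneg μ h)
  have hk2 := ker_nonneg (marg2 μ) (marg2_nonneg μ h)
  have hs0 : ∀ v, 0 ≤ ∑ w, μ w v := fun v => Finset.sum_nonneg fun _ _ => h _ _
  have hg := gibbs (Finset.univ : Finset ((V × V) × (W × W))) (fun x => μ x.2 x.1) q
    (fun x _ => h _ _)
    (fun x _ => by
      have := hs0 x.1; have := hk1 x.2.1 x.1.1; have := hk2 x.2.2 x.1.2
      simp only [hq]
      positivity)
    (fun x _ hx => by
      have h1 : 0 < ∑ w, μ w x.1 := lt_of_lt_of_le hx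
        (Finset.single_le_sum (f := fun a' => μ a' x.1) (fun i _ => h i x.1) (Finset.mem_univ x.2))
      have h2 := (log_ker (marg1 μ) (marg1_nonneg μ h)
        (lt_of_lt_of_le hx (le_marg1 μ h x.2.1 x.2.2 x.1.1 x.1.2))).2
      have h3 := (log_ker (marg2 μ) (marg2_nonneg μ h)
        (lt_of_lt_of_le hx (le_marg2 μ h x.2.1 x.2.2 x.1.1 x.1.2))).2
      simp only [hq]
      positivity)
  have hqtot : ∑ x, q x ≤ ∑ x : (V × V) × (W × W), μ x.2 x.1 := by
    rw [Fintype.sum_prod_type,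
      Fintype.sum_prod_type (f := fun x : (V × V) × (W × W) => μ x.2 x.1)]
    refine Finset.sum_le_sum fun v _ => ?_
    simp only [hq]
    rw [← Finset.mul_sum]
    have h1 : ∑ w : W × W, ker (marg1 μ) w.1 v.1 * ker (marg2 μ) w.2 v.2 ≤ 1 := by
      rw [Fintype.sum_prod_type]
      simp only []
      simp_rw [← Finset.mul_sum]
      rw [← Finset.sum_mul]
      exact mul_le_one₀ (sum_ker_le_one _ _) (Finset.sum_nonneg fun _ _ => hk2 _ _)
        (sum_ker_le_one _ _)
    calc _ ≤ (∑ w, μ w v) * 1 := mul_le_mul_of_nonneg_left h1 (hs0 v)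
      _ = _ := mul_one _
  have hexp : ∑ x : (V × V) × (W × W), μ x.2 x.1 * (Real.log (q x) - Real.log (μ x.2 x.1)) =
      Hc μ + ∑ v, ∑ w, μ w v * Real.log (ker (marg1 μ) w.1 v.1)
        + ∑ v, ∑ w, μ w v * Real.log (ker (marg2 μ) w.2 v.2) := by
    rw [Fintype.sum_prod_type]
    unfold Hc
    simp only [← Finset.sum_add_distrib]
    refine Finset.sum_congr rfl fun v _ => Finset.sum_congr rfl fun w _ => ?_
    rcases (h w v).eq_or_lt with h0 | h0
    · rw [← h0]; simp
    · have h1 : 0 < ∑ w, μ w v := lt_of_lt_of_le h0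
        (Finset.single_le_sum (f := fun a' => μ a' v) (fun i _ => h i v) (Finset.mem_univ w))
      have h2 := (log_ker (marg1 μ) (marg1_nonneg μ h)
        (lt_of_lt_of_le h0 (le_marg1 μ h w.1 w.2 v.1 v.2))).2
      have h3 := (log_ker (marg2 μ) (marg2_nonneg μ h)
        (lt_of_lt_of_le h0 (le_marg2 μ h w.1 w.2 v.1 v.2))).2
      simp only [hq]
      rw [Real.log_mul h1.ne' (by positivity), Real.log_mul h2.ne' h3.ne']
      ring
  rw [hexp, sum_log_ker1 μ h, sum_log_ker2 μ h] at hg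
  linarith

end Vale.Agent.P109.Ent
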