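import Mathlib
import Vale.Agent.P109.A424.Dom
import Vale.Agent.P109.A424.Sub
import Vale.Agent.P109.A424.Fam
import Vale.Agent.P109.H462.Schedule

/-!
# P109, block [A] (helper424): the contradiction
-/

open Finset MeasureTheory Set
open scoped ENNReal

namespace Vale.Agent.P109.A424

open H462 H462.Sched Ent

namespace Phased

variable {s : Sched} {t : s.Rels} {M : Type} [MeasurableSpace M] {ν : Measure M}
  {S : M → M} (P : Phased s t ν S)

/-- the preimages of `Z j ∩ M0` are disjoint -/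
theorem disjoint_preimages (j : ℕ) : ∀ i < 2 ^ j, ∀ i' < 2 ^ j, i ≠ i' →
    Disjoint (S^[i] ⁻¹' (P.Z j ∩ P.M0)) (S^[i'] ⁻¹' (P.Z j ∩ P.M0)) := by
  have key : ∀ i i' : ℕ, i < i' → i' < 2 ^ j →
      Disjoint (S^[i] ⁻¹' (P.Z j ∩ P.M0)) (S^[i'] ⁻¹' (P.Z j ∩ P.M0)) := by
    intro i i' hii hi'
    rw [Set.disjoint_left]
    rintro z ⟨h1, h2⟩ ⟨h3, _⟩
    have h1' : P.τ j (S^[i] z) = 0 := h1
    have h3' : P.τ j (S^[i'] z) = 0 := h3
    have h4 := (P.iter_step j h2 (i' - i) (by omega)).1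
    rw [← Function.iterate_add_apply, show i' - i + i = i' by omega, h3', h1'] at h4
    omega
  intro i hi i' hi' hne
  rcases lt_or_gt_of_ne hne with h | h
  · exact key i i' h hi'
  · exact (key i' i h hi).symm

variable [IsFiniteMeasure ν] (hS : MeasurePreserving S ν ν) {α : M → s.W 0} (hα : Measurable α)

include hS hα in
theorem sum_not (j0 i : ℕ) (near : s.W (j0 + i) → VT (s.W j0) i → Prop)
    [∀ w v, Decidable (near w v)] :
    ∑ v, ∑ w, (if near w v then 0 else P.mi j0 α i w v) =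
      2 ^ (j0 + i) * ν.real (P.Z (j0 + i) ∩
        {z | ¬ near (P.w (j0 + i) z) (vv t j0 S α i z)}) := by
  classical
  have h := P.sum_lawZ (j0 + i) (P.FM_wv hS hα j0 i)
    (Finset.univ.filter fun c : s.W (j0 + i) × VT (s.W j0) i => ¬ near c.1 c.2)
  have h2 : ((Finset.univ.filter fun c : s.W (j0 + i) × VT (s.W j0) i => ¬ near c.1 c.2 :
      Finset _) : Set (s.W (j0 + i) × VT (s.W j0) i)) = {c | ¬ near c.1 c.2} := by
    ext c; simp
  rw [h2, Finset.sum_filter, Fintype.sum_prod_type, Finset.sum_comm] at h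
  rw [← show _ = 2 ^ (j0 + i) * ν.real (P.Z (j0 + i) ∩
        {z | ¬ near (P.w (j0 + i) z) (vv t j0 S α i z)}) from h]
  refine Finset.sum_congr rfl fun v _ => Finset.sum_congr rfl fun w _ => ?_
  unfold mi
  by_cases hn : near w v <;> simp [hn]

include hS hα in
/-- the entropy per level at most doubles -/
theorem Hc_succ_le (j0 i : ℕ) : Hc (P.mi j0 α (i + 1)) ≤ 2 * Hc (P.mi j0 α i) := by
  rw [P.Hc_lawP j0 i α, ← P.avg_lawP hS hα j0 i]
  exact (Hc_le_marg _ (P.lawP_nonneg j0 α i)).trans (two_Hc_avg _ (P.lawP_nonneg j0 α i))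

end Phased

/-- What the choice of the relations gives (see `Oracle.lean`). -/
def OracleProp (Fam : OV.Family (sched.W 0)) (c : ℕ → ℕ) (t : sched.Rels) : Prop :=
  ∀ σ i, i < Jlen σ → ∀ N ≤ js σ + i,
    (sched.κ (js σ + i) + 2 ^ (js σ + i + 1) + 2) ^ c N ≤ 2 ^ (sched.κ (js σ + i) / 4) →
    ∀ L ∈ Fam N (sched.κ (js σ + i)) (2 ^ (js σ + i + 1)), L Set.univ ≤ 1 →
    ∀ f1 f2 : sched.W (js σ + i) → VT (sched.W (js σ)) i → ℝ, (∀ w v, 0 ≤ f1 w v) →
      (∀ w v, 0 ≤ f2 w v) → ∀ k1 k2 : sched.W (js σ + i) → VT (sched.W (js σ)) i → ℝ,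
      k1 = A874.rnd (nr t (js σ) i) (2 ^ (2 * sched.κ (js σ + i))) (ker f1) →
      k2 = A874.rnd (nr t (js σ) i) (2 ^ (2 * sched.κ (js σ + i))) (ker f2) →
      ∑ w : sched.W (js σ + i) × sched.W (js σ + i),
        (if sched.GRel (js σ + i) (t (js σ + i)) w.1 w.2 ∧
          Lam (nr t (js σ) i) k1 k2 (LpOf t (js σ) i L) w ≤ thr sched (js σ + i) then
          Lam (nr t (js σ) i) k1 k2 (LpOf t (js σ) i L) w else 0) ≤ 8 / 2 ^ sched.lam (js σ + i)

/-- One simple level, with the numerical constants of the construction. -/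
theorem simple_level {Fam : OV.Family (sched.W 0)} {c : ℕ → ℕ} {t : sched.Rels}
    (horc : OracleProp Fam c t) {M : Type} [MeasurableSpace M] {ν : Measure M}
    [IsFiniteMeasure ν] {S : M → M} (hS : MeasurePreserving S ν ν) (P : Phased sched t ν S)
    {α : M → sched.W 0} (hα : Measurable α) {σ i N : ℕ} (hi : i < Jlen σ)
    (hN : N ≤ js σ + i)
    (hcN : (sched.κ (js σ + i) + 2 ^ (js σ + i + 1) + 2) ^ c N ≤ 2 ^ (sched.κ (js σ + i) / 4))
    (hnn : ∑ v, ∑ w, (if nr t (js σ) i w v then 0 else P.mi (js σ) α i w v) ≤ 1 / 50)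
    {L : Measure (Fin (2 ^ (js σ + i + 1)) → sched.W 0)}
    (hL : L ∈ Fam N (sched.κ (js σ + i)) (2 ^ (js σ + i + 1))) (hL1 : L Set.univ ≤ 1)
    {G : Set M} (hG : MeasurableSet G)
    (hG1 : (2 ^ (js σ + i + 1) : ℝ≥0∞) * ν ((P.Z (js σ + i + 1) ∩ P.M0) \ G) ≤
      ENNReal.ofReal (1 / 10))
    (hG2 : ∀ U : Set (Fin (2 ^ (js σ + i + 1)) → sched.W 0),
      ν (G ∩ {z | OV.name S α (2 ^ (js σ + i + 1)) z ∈ U}) ≤ 2 * L U)
    (hn1 : (2 : ℝ) ^ (js σ + i + 5) * Real.exp (-(sched.lam (js σ + i) * Real.log 2 / 2)) ≤ 1 / 20)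
    (hn2 : (2 ^ sched.κ (js σ + i + 1) : ℝ)⁻¹ * 2 / thr sched (js σ + i) ≤ 1 / 20) :
    Hc (P.mi (js σ) α (i + 1)) ≤ 2 * Hc (P.mi (js σ) α i) -
      3 / 4 * (sched.lam (js σ + i) * Real.log 2 / 2) + Real.log 2 := by
  have hlog : 0 ≤ Real.log 2 := Real.log_nonneg (by norm_num)
  have hΛ : 0 ≤ (sched.lam (js σ + i) : ℝ) * Real.log 2 / 2 := by positivity
  have hκ : 2 ≤ sched.κ (js σ + i) := by
    have h1 := sched_κ_ge_linear (js σ + i)
    have h2 : (2 : ℝ) ≤ sched.κ (js σ + i) := by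
      have : (0 : ℝ) ≤ ((js σ + i : ℕ) : ℝ) := Nat.cast_nonneg _
      nlinarith
    exact_mod_cast h2
  have hLam := horc σ i hi N hN hcN L hL hL1 (marg1 (P.lawP (js σ) α i))
    (marg2 (P.lawP (js σ) α i)) (marg1_nonneg _ (P.lawP_nonneg _ _ _))
    (marg2_nonneg _ (P.lawP_nonneg _ _ _)) _ _ rfl rfl
  have h := (P.level_step hS hα (js σ) i (2 ^ js σ / 500) hG (ε' := 1 / 10) (by norm_num) L hL1 hG1 hG2
    hnn _ _ rfl rfl (LpOf t (js σ) i L) (fun v => rfl) hκ (thr_pos sched (js σ + i)) hΛ hLam).1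
  refine h.trans ?_
  have e1 : (2 : ℝ) ^ (js σ + i + 2) * (8 / 2 ^ sched.lam (js σ + i)) *
      Real.exp (sched.lam (js σ + i) * Real.log 2 / 2) =
      (2 : ℝ) ^ (js σ + i + 5) * Real.exp (-(sched.lam (js σ + i) * Real.log 2 / 2)) := by
    have e2 : (2 : ℝ) ^ sched.lam (js σ + i) =
        Real.exp (sched.lam (js σ + i) * Real.log 2 / 2) *
          Real.exp (sched.lam (js σ + i) * Real.log 2 / 2) := by
      rw [← Real.exp_add, add_halves, ← Real.rpow_natCast,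
        Real.rpow_def_of_pos (by norm_num), mul_comm]
    rw [e2, Real.exp_neg]
    have : Real.exp (sched.lam (js σ + i) * Real.log 2 / 2) ≠ 0 := (Real.exp_pos _).ne'
    field_simp
    ring
  rw [e1]
  have h2 : (3 / 4 : ℝ) ≤ 1 - 1 / 25 - (2 ^ sched.κ (js σ + i + 1) : ℝ)⁻¹ * 2 /
      thr sched (js σ + i) - 1 / 10 - (2 : ℝ) ^ (js σ + i + 5) *
        Real.exp (-(sched.lam (js σ + i) * Real.log 2 / 2)) := by
    linarith
  have h3 := mul_le_mul_of_nonneg_left h2 hΛ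
  linarith

end Vale.Agent.P109.A424
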