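import Mathlib
import Vale.Agent.P109.A424.Simple
import Vale.Agent.P109.A424.Oracle

/-!
# P109, block [A] (helper424): the choice of the relations
-/

open Finset MeasureTheory Set
open scoped ENNReal

namespace Vale.Agent.P109.A424

open H462 H462.Sched Ent

/-- base of the stretch which contains the level `j` -/
noncomputable def base (j : ℕ) : ℕ := js (Classical.choose (exists_stage j))

theorem base_eq {σ i : ℕ} (hi : i < Jlen σ) : base (js σ + i) = js σ := by
  unfold base
  have h := Classical.choose_spec (exists_stage (js σ + i))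
  rw [stage_unique h.1 h.2 (s' := σ) (by omega) (by rw [js_succ]; omega)]

theorem numCond {σ i : ℕ} (hi : i < Jlen σ) : NumCond sched (js σ) (js σ + i) := by
  have h1 := sched_κ_half (s := σ) (i := i) hi.le
  have h2 := sched_κ_ge_linear (js σ)
  have h3 := sched_κ_ge_linear (js σ + i)
  have hj : (0 : ℝ) ≤ ((js σ : ℕ) : ℝ) := Nat.cast_nonneg _
  have hji : (0 : ℝ) ≤ ((js σ + i : ℕ) : ℝ) := Nat.cast_nonneg _
  refine ⟨?_, ?_, sched_lam_le _, ?_, ?_⟩
  · rw [Nat.add_sub_cancel_left]
    have : (sched.κ (js σ) : ℝ) * 2 ^ i ≤ 2 * sched.κ (js σ + i) := by linarith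
    exact_mod_cast this
  · have : (100 : ℝ) ≤ sched.κ (js σ) := by nlinarith
    exact_mod_cast this
  · have : (1000 : ℝ) ≤ sched.κ (js σ + i) := by nlinarith
    exact_mod_cast this
  · have : ((js σ + i + 1 : ℕ) : ℝ) ≤ sched.κ (js σ + i) := by
      push_cast at hji h3 ⊢
      nlinarith
    exact_mod_cast this

/-- **Choice of the relations**, for a given small family of laws. -/
theorem exists_choice {Fam : OV.Family (sched.W 0)} {c : ℕ → ℕ}
    (hF : ∀ N B n, (Fam N B n).Finite ∧
      (Fam N B n).ncard ≤ 2 ^ ((B + n + 2) ^ c N * 2 ^ (B / 2))) :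
    ∃ t : sched.Rels, OracleProp Fam c t ∧ ∀ j, Sched.ListProp t j (1 / 100) := by
  obtain ⟨t, h1, h2, _⟩ := exists_rels (thr sched) (thr_pos sched)
    (fun j t => oracle Fam c base j t) (fun j t t' h => oracle_dep Fam c base j t t' h)
    (fun j t => oracle_card hF base j t)
  refine ⟨t, ?_, h2⟩
  have hgood : GoodRels Fam c base t := h1
  intro σ i hi N hN hc L hL hL1 f1 f2 hf1 hf2 k1 k2 hk1 hk2
  exact (hgood.hLam hF (base_eq hi) (numCond hi) (h2 _) hN hc hL hL1 f1 f2 hf1 hf2 k1 k2
    hk1 hk2).2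

end Vale.Agent.P109.A424
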