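import Mathlib
import Vale.Agent.P109.A424.Simple

/-!
# P109, block [A] (helper424): the decoded name is near the word; entropy at the base of a stretch
-/

open Finset MeasureTheory Set
open scoped ENNReal

namespace Vale.Agent.P109.A424

open H462 H462.Sched Ent

/-- number of errors -/
def cnt {M A : Type} [DecidableEq A] (S : M → M) (α β : M → A) (n : ℕ) (z : M) : ℕ :=
  ((Finset.range n).filter fun k => α (S^[k] z) ≠ β (S^[k] z)).card

theorem cnt_add {M A : Type} [DecidableEq A] (S : M → M) (α β : M → A) (n : ℕ) (z : M) :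
    cnt S α β (n + n) z = cnt S α β n z + cnt S α β n (S^[n] z) := by
  unfold cnt
  simp only [Finset.card_filter]
  rw [Finset.sum_range_add]
  congr 1
  refine Finset.sum_congr rfl fun k _ => ?_
  rw [add_comm n k, Function.iterate_add_apply]

variable {s : Sched} {t : s.Rels} {M : Type} [MeasurableSpace M] {ν : Measure M}
  {S : M → M} (P : Phased s t ν S)

theorem mis_eq_cnt (α : M → s.W 0) (j : ℕ) {z : M} (hz : z ∈ P.M0) (h0 : P.τ j z = 0) :
    mis (s.spell t j (P.w j z)) (fun r : Fin (2 ^ j) => α (S^[r] z)) =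
      cnt S α (P.w 0) (2 ^ j) z := by
  unfold mis cnt
  rw [Finset.card_filter, Finset.card_filter, Finset.sum_range]
  refine Finset.sum_congr rfl fun r _ => ?_
  have h1 : s.spell t j (P.w j z) r = P.w 0 (S^[r] z) := (P.letter_iter j hz h0 r r.2).symm
  rw [h1]
  congr 1
  exact propext ne_comm

theorem bad_le (α : M → s.W 0) (j0 i : ℕ) {z : M} (hz : z ∈ P.M0) (h0 : P.τ (j0 + i) z = 0) :
    2 ^ j0 * bad t j0 (2 ^ j0 / 500) i (P.w (j0 + i) z) (vv t j0 S α i z) ≤
      1000 * cnt S α (P.w 0) (2 ^ (j0 + i)) z := by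
  induction i generalizing z with
  | zero =>
    have h1 : bad t j0 (2 ^ j0 / 500) 0 (P.w (j0 + 0) z) (vv t j0 S α 0 z) =
        if mis (s.spell t j0 (P.w j0 z)) (s.spell t j0 (dec t j0 (fun r => α (S^[r] z)))) ≤
          2 ^ j0 / 500 then 0 else 1 := rfl
    rw [h1]
    split_ifs with h
    · simp
    · have h2 := mis_dec_le t j0 (fun r : Fin (2 ^ j0) => α (S^[r] z)) (P.w j0 z)
      rw [mis_eq_cnt P α j0 hz h0] at h2
      simp only [add_zero]
      omega
  | succ i ih =>
    obtain ⟨h1, h2, h3, h4⟩ := P.halves (j0 + i) hz h0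
    have e1 := ih hz h1
    have e2 := ih (P.iter_mem hz (2 ^ (j0 + i))) h3
    rw [vv_succ]
    have e3 : bad t j0 (2 ^ j0 / 500) (i + 1) (P.w (j0 + (i + 1)) z)
        (vv t j0 S α i z, vv t j0 S α i (S^[2 ^ (j0 + i)] z)) =
        bad t j0 (2 ^ j0 / 500) i (P.w (j0 + i) z) (vv t j0 S α i z) +
        bad t j0 (2 ^ j0 / 500) i (P.w (j0 + i) (S^[2 ^ (j0 + i)] z))
          (vv t j0 S α i (S^[2 ^ (j0 + i)] z)) := by
      rw [h2, h4]
      rfl
    have e4 : 2 ^ (j0 + (i + 1)) = 2 ^ (j0 + i) + 2 ^ (j0 + i) := by ring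
    rw [e3, e4, cnt_add, mul_add, mul_add]
    exact Nat.add_le_add e1 e2

theorem measurableSet_err (hS : Measurable S) {α : M → s.W 0} (hα : Measurable α) (k : ℕ) :
    MeasurableSet {z | α (S^[k] z) ≠ P.w 0 (S^[k] z)} := by
  have h1 : FM α := FM.of_fiber fun a => hα (measurableSet_singleton a)
  have h2 : FM (fun z => (α z, P.w 0 z)) := h1.prodMk (P.FM_w 0)
  exact (h2.comp_measurable (hS.iterate k)) {c | c.1 ≠ c.2}

theorem markov [IsFiniteMeasure ν] (hS : MeasurePreserving S ν ν) {α : M → s.W 0}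
    (hα : Measurable α) (j R : ℕ) {E : Set M} (hE : E ⊆ P.Z j)
    (hER : ∀ z ∈ E, 2 ^ j ≤ R * cnt S α (P.w 0) (2 ^ j) z) :
    2 ^ j * ν.real (E ∩ P.M0) ≤ R * ν.real {z | α z ≠ P.w 0 z} := by
  classical
  set D : ℕ → Set M := fun k => {z | α (S^[k] z) ≠ P.w 0 (S^[k] z)} with hD
  have hDm : ∀ k, MeasurableSet (D k) := fun k => measurableSet_err P hS.measurable hα k
  have hDm0 : MeasurableSet {z | α z ≠ P.w 0 z} := hDm 0
  have key : (2 : ℝ≥0∞) ^ j * ν (E ∩ P.M0) ≤ R * ν {z | α z ≠ P.w 0 z} := by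
    calc (2 : ℝ≥0∞) ^ j * ν (E ∩ P.M0)
        = ∫⁻ z in E ∩ P.M0, (2 : ℝ≥0∞) ^ j ∂ν := by
          rw [setLIntegral_const]
      _ ≤ ∫⁻ z in E ∩ P.M0, (R : ℝ≥0∞) * ∑ k ∈ Finset.range (2 ^ j), (D k).indicator 1 z ∂ν := by
          refine lintegral_mono_ae ?_
          have hae : ∀ᵐ z ∂(ν.restrict (E ∩ P.M0)), z ∈ E ∩ P.M0 ∨ True := by simp
          have : ∀ᵐ z ∂(ν.restrict (E ∩ P.M0)), 2 ^ j ≤ R * cnt S α (P.w 0) (2 ^ j) z := by
            have hm : MeasurableSet {z | 2 ^ j ≤ R * cnt S α (P.w 0) (2 ^ j) z} := by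
              have hc : Measurable (fun z => cnt S α (P.w 0) (2 ^ j) z) := by
                unfold cnt
                simp only [Finset.card_filter]
                refine Finset.measurable_sum _ fun k _ => ?_
                exact Measurable.ite (hDm k) measurable_const measurable_const
              exact measurableSet_le measurable_const (hc.const_mul R)
            rw [ae_restrict_iff hm]
            exact Filter.Eventually.of_forall fun z hz => hER z hz.1
          filter_upwards [this] with z hz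
          have h1 : (∑ k ∈ Finset.range (2 ^ j), (D k).indicator (1 : M → ℝ≥0∞) z) =
              ((cnt S α (P.w 0) (2 ^ j) z : ℕ) : ℝ≥0∞) := by
            unfold cnt
            rw [Finset.card_filter]
            push_cast
            refine Finset.sum_congr rfl fun k _ => ?_
            by_cases hk : α (S^[k] z) ≠ P.w 0 (S^[k] z)
            · rw [Set.indicator_of_mem (show z ∈ D k from hk), if_pos hk]; rfl
            · rw [Set.indicator_of_notMem (show z ∉ D k from hk), if_neg hk]
          rw [h1]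
          exact_mod_cast hz
      _ = R * ∑ k ∈ Finset.range (2 ^ j), ν (D k ∩ (E ∩ P.M0)) := by
          rw [lintegral_const_mul, lintegral_finsetSum]
          · congr 1
            refine Finset.sum_congr rfl fun k _ => ?_
            rw [lintegral_indicator_one (hDm k), Measure.restrict_apply (hDm k)]
          · intro k _
            exact measurable_one.indicator (hDm k)
          · exact Finset.measurable_sum _ fun k _ => measurable_one.indicator (hDm k)
      _ ≤ R * ∑ k ∈ Finset.range (2 ^ j), ν ({z | P.τ j z = k} ∩ {z | α z ≠ P.w 0 z}) := by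
          refine mul_le_mul_right ?_ _
          refine Finset.sum_le_sum fun k hk => ?_
          rw [← (hS.iterate k).measure_preimage ((P.hτ j k).inter hDm0).nullMeasurableSet]
          refine measure_mono ?_
          rintro z ⟨h1, h2, h3⟩
          have h0 : P.τ j z = 0 := hE h2
          have h4 := (P.iter_step j h3 k (by rw [h0]; simpa using hk)).1
          exact ⟨by simp only [Set.mem_ofPred_eq]; rw [h4, h0, zero_add], h1⟩
      _ ≤ R * ν {z | α z ≠ P.w 0 z} := by
          refine mul_le_mul_right ?_ _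
          rw [← measure_biUnion_finset]
          · refine measure_mono ?_
            intro z hz
            rw [Set.mem_iUnion₂] at hz
            obtain ⟨k, _, hk⟩ := hz
            exact hk.2
          · intro a _ b _ hab
            rw [Function.onFun, Set.disjoint_left]
            rintro z ⟨h1, _⟩ ⟨h2, _⟩
            exact hab (h1.symm.trans h2)
          · intro k _
            exact (P.hτ j k).inter hDm0
  have h1 := ENNReal.toReal_mono (ENNReal.mul_ne_top (by simp) (measure_ne_top _ _)) key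
  rw [ENNReal.toReal_mul, ENNReal.toReal_mul] at h1
  simpa [measureReal_def] using h1

theorem near_mass [IsFiniteMeasure ν] (hS : MeasurePreserving S ν ν)
    {α : M → s.W 0} (hα : Measurable α) (j0 i : ℕ)
    (hε : ν.real {z | α z ≠ P.w 0 z} ≤ 1 / 10 ^ 6) :
    2 ^ (j0 + i) * ν.real (P.Z (j0 + i) ∩
      {z | ¬ near t j0 (2 ^ j0 / 500) i (P.w (j0 + i) z) (vv t j0 S α i z)}) ≤ 1 / 50 := by
  set E : Set M := P.Z (j0 + i) ∩
      {z | ¬ near t j0 (2 ^ j0 / 500) i (P.w (j0 + i) z) (vv t j0 S α i z)} with hE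
  have h1 : ν.real E = ν.real ((E ∩ P.M0) ∩ P.M0) := by
    rw [Set.inter_assoc, Set.inter_self]
    apply measureReal_congr
    have h0 : P.M0 =ᵐ[ν] Set.univ := by rw [ae_eq_univ]; exact P.hM0null
    have := (Filter.EventuallyEq.refl (ae ν) E).inter h0
    simpa using this.symm
  rw [h1]
  have h2 := markov P hS hα (j0 + i) 20000 (E := E ∩ P.M0)
    (fun z hz => hz.1.1) (by
      rintro z ⟨⟨hz1, hz2⟩, hz3⟩
      have h3 := bad_le P α j0 i hz3 hz1
      have h4 : 2 ^ i < 20 * bad t j0 (2 ^ j0 / 500) i (P.w (j0 + i) z) (vv t j0 S α i z) :=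
        not_le.1 hz2
      have h5 : 2 ^ j0 * 2 ^ i ≤
          2 ^ j0 * (20 * bad t j0 (2 ^ j0 / 500) i (P.w (j0 + i) z) (vv t j0 S α i z)) :=
        Nat.mul_le_mul_left _ h4.le
      have h6 : 2 ^ (j0 + i) ≤
          20 * (2 ^ j0 * bad t j0 (2 ^ j0 / 500) i (P.w (j0 + i) z) (vv t j0 S α i z)) := by
        rw [pow_add]
        refine h5.trans (le_of_eq ?_)
        ring
      linarith)
  refine h2.trans ?_
  push_cast
  linarith

theorem base_entropy [IsFiniteMeasure ν] (hS : MeasurePreserving S ν ν)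
    {α : M → s.W 0} (hα : Measurable α) (j0 : ℕ)
    (hε : ν.real {z | α z ≠ P.w 0 z} ≤ 1 / 10 ^ 6) (hlist : s.ListProp t j0 (1 / 100)) :
    Hc (P.mi j0 α 0) ≤ Real.log 2 * (1 + 13 / 1000 * s.κ j0) := by
  classical
  let nr0 : s.W (j0 + 0) → VT (s.W j0) 0 → Prop := fun w v =>
    mis (s.spell t j0 w) (s.spell t j0 v) ≤ 2 ^ j0 / 500
  have hne : Nonempty (s.W (j0 + 0)) := ⟨⟨0, by positivity⟩⟩
  have h := Hc_le_of_list (P.mi j0 α 0) (P.mi_nonneg j0 α 0) (P.sum_mi hS hα j0 0) nr0
    (ℓ := (2 : ℝ) ^ ((3 / 250 : ℝ) * s.κ j0)) (p := 1 / 1000)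
    (Real.one_le_rpow (by norm_num) (by positivity))
    (by
      intro v
      have h1 := list_le hlist (s := s) (t := t) (j0 := j0) v
      have h2 : (univ.filter fun w : s.W (j0 + 0) => nr0 w v) =
          (univ.filter fun w : s.W j0 => mis (s.spell t j0 v) (s.spell t j0 w) ≤ 2 ^ j0 / 500) := by
        refine Finset.filter_congr fun w _ => ?_
        show mis (s.spell t j0 w) (s.spell t j0 v) ≤ 2 ^ j0 / 500 ↔ _
        rw [mis_comm]
      rw [h2]
      exact h1)
    (by
      rw [P.sum_not hS hα j0 0 nr0]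
      set E : Set M := P.Z (j0 + 0) ∩ {z | ¬ nr0 (P.w (j0 + 0) z) (vv t j0 S α 0 z)} with hE
      have h1 : ν.real E = ν.real ((E ∩ P.M0) ∩ P.M0) := by
        rw [Set.inter_assoc, Set.inter_self]
        apply measureReal_congr
        have h0 : P.M0 =ᵐ[ν] Set.univ := by rw [ae_eq_univ]; exact P.hM0null
        have := (Filter.EventuallyEq.refl (ae ν) E).inter h0
        simpa using this.symm
      rw [h1]
      have h2 := markov P hS hα (j0 + 0) 1000 (E := E ∩ P.M0)
        (fun z hz => hz.1.1) (by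
          rintro z ⟨⟨hz1, hz2⟩, hz3⟩
          have h3 := mis_dec_le t j0 (fun r : Fin (2 ^ j0) => α (S^[r] z)) (P.w j0 z)
          rw [mis_eq_cnt P α j0 hz3 hz1] at h3
          have h4 : 2 ^ j0 / 500 < mis (s.spell t j0 (P.w j0 z))
              (s.spell t j0 (dec t j0 (fun r => α (S^[r] z)))) := not_le.1 hz2
          simp only [add_zero]
          omega)
      refine h2.trans ?_
      push_cast
      linarith)
  refine h.trans (le_of_eq ?_)
  rw [Real.log_rpow (by norm_num), Fintype.card_fin]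
  push_cast
  rw [Real.log_pow]
  simp only [add_zero]
  ring

end Vale.Agent.P109.A424
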