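import Mathlib
import Vale.Agent.P109.R996.EntMap

open Finset

namespace Vale.Agent.P109.A424

theorem stretch_contradiction {J κ0 : ℕ} (hJ : 1 ≤ J) (hκ0 : 1000 * J ≤ κ0) (x : ℕ → ℝ)
    (hx : ∀ i, 0 ≤ x i) (hx0 : x 0 ≤ Real.log 2 * (1 + 13 / 1000 * κ0))
    (hstep : ∀ i < J, x (i + 1) ≤ 2 * x i) (k lam : ℕ → ℕ)
    (hk : ∀ i < J, (κ0 : ℝ) * 2 ^ i / 2 ≤ k i) (hlam : ∀ i < J, lam i = k i / J)
    (Sset : Finset ℕ) (hS : Sset ⊆ range J)
    (hsimple : ∀ i ∈ Sset, x (i + 1) ≤ 2 * x i - 3 / 4 * (lam i * Real.log 2 / 2) + Real.log 2)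
    (hcard : J ≤ 2 * Sset.card) : False := by
  have hJ0 : (0 : ℝ) < J := by exact_mod_cast hJ
  have hl : 0 < Real.log 2 := Real.log_pos (by norm_num)
  have hκ0' : (1000 : ℝ) * J ≤ κ0 := by exact_mod_cast hκ0
  have hX : (1000 : ℝ) ≤ κ0 / J := by rw [le_div_iff₀ hJ0]; exact hκ0'
  have h := Ent.card_simple_le x 0 J (Nat.zero_le _) Sset
    (by intro i hi; rw [mem_Ico]; exact ⟨Nat.zero_le _, mem_range.1 (hS hi)⟩)
    (y := Real.log 2 * (9 / 100 * (κ0 / J))) (hx J) (fun i _ hi => hstep i hi) (by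
      intro i hi
      have hiJ := mem_range.1 (hS hi)
      refine (hsimple i hi).trans ?_
      have h1 : (k i : ℝ) / J - 1 ≤ lam i := by
        rw [hlam i hiJ]
        have := Nat.lt_div_mul_add (a := k i) hJ
        have h2 : (k i : ℝ) < (k i / J : ℕ) * J + J := by exact_mod_cast this
        rw [div_sub_one hJ0.ne', div_le_iff₀ hJ0]
        linarith
      have h3 : (κ0 : ℝ) / J * 2 ^ i / 2 ≤ (k i : ℝ) / J := by
        rw [le_div_iff₀ hJ0]
        have := hk i hiJ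
        calc (κ0 : ℝ) / J * 2 ^ i / 2 * J = κ0 * 2 ^ i / 2 := by field_simp
          _ ≤ k i := this
      have h4 : (1 : ℝ) ≤ 2 ^ i := one_le_pow₀ (by norm_num)
      have h5 : (1000 : ℝ) ≤ κ0 / J * 2 ^ i := by nlinarith
      have h6 : (9 / 100 * ((κ0 : ℝ) / J)) * 2 ^ (i + 1) ≤ 3 / 8 * lam i - 1 := by
        rw [pow_succ]
        nlinarith
      have h7 := mul_le_mul_of_nonneg_left h6 hl.le
      nlinarith)
  rw [pow_zero, div_one] at h
  have hc : (J : ℝ) / 2 ≤ Sset.card := by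
    have : (J : ℝ) ≤ 2 * Sset.card := by exact_mod_cast hcard
    linarith
  have h1 : Real.log 2 * (9 / 200 * κ0) ≤ Real.log 2 * (1 + 13 / 1000 * κ0) := by
    refine le_trans ?_ (h.trans hx0)
    calc Real.log 2 * (9 / 200 * κ0) = (J : ℝ) / 2 * (Real.log 2 * (9 / 100 * (κ0 / J))) := by
          field_simp; ring
      _ ≤ _ := mul_le_mul_of_nonneg_right hc (by positivity)
  have h2 := le_of_mul_le_mul_left h1 hl
  have h3 : (1000 : ℝ) ≤ κ0 := by
    have : (1 : ℝ) ≤ J := by exact_mod_cast hJ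
    linarith
  linarith

end Vale.Agent.P109.A424
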