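import Mathlib
import Vale.Agent.P109.H462.Schedule

/-!
# P109, block [A], A-NUM (2) (helper462): numerical facts about the concrete schedule in a late stretch
-/

open Filter

namespace Vale.Agent.P109.A424

open H462

/-- `2 ^ j * 10 ^ 6` is an upper bound for the schedule. -/
theorem sched_κ_le (j : ℕ) : sched.κ j ≤ 10 ^ 6 * 2 ^ j := by
  have h : (sched.κ j : ℝ) ≤ 10 ^ 6 * 2 ^ j := by
    induction j with
    | zero => rw [sched_κ_zero]; norm_num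
    | succ j ih =>
      have := sched_κ_succ_le j
      rw [pow_succ (2 : ℝ) j]
      linarith
  exact_mod_cast h

theorem Jlen_succ (s : ℕ) : Jlen (s + 1) = 8 * Jlen s := by
  unfold Jlen
  rw [pow_succ]; ring

/-- The length of a late stretch is at most `8` times its starting level. -/
theorem Jlen_le_js (s : ℕ) : Jlen (s + 1) ≤ 8 * js (s + 1) := by
  rw [Jlen_succ, js_succ]; omega

theorem eight_pow_le_js (s : ℕ) : 8 ^ (s + 1) ≤ js (s + 1) := by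
  have h1 : js (s + 1) = js s + Jlen s + 1 := js_succ s
  have h2 : Jlen s = 1000 * 8 ^ s := rfl
  rw [h1, h2, pow_succ]; omega

/-- real growth of the schedule beats every linear function times a linear function -/
theorem tendsto_κ_div_sq : Tendsto (fun j : ℕ => (sched.κ j : ℝ) / ((j : ℝ) ^ 2)) atTop atTop := by
  have h1 : Tendsto (fun j : ℕ => (j : ℝ) ^ 2 / (19 / 10 : ℝ) ^ j) atTop (nhds 0) :=
    tendsto_pow_const_div_const_pow_of_one_lt 2 (by norm_num)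
  have h2 : Tendsto (fun j : ℕ => (19 / 10 : ℝ) ^ j / (j : ℝ) ^ 2) atTop atTop := by
    have h3 : Tendsto (fun j : ℕ => (j : ℝ) ^ 2 / (19 / 10 : ℝ) ^ j) atTop (nhdsWithin 0 (Set.Ioi 0)) := by
      rw [tendsto_nhdsWithin_iff]
      refine ⟨h1, ?_⟩
      filter_upwards [eventually_gt_atTop 0] with j hj
      have : (0 : ℝ) < j := by exact_mod_cast hj
      exact Set.mem_Ioi.2 (by positivity)
    have h4 := h3.inv_tendsto_nhdsGT_zero
    refine h4.congr fun j => ?_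
    simp [inv_div]
  refine tendsto_atTop_mono (fun j => ?_) h2
  have h := sched_κ_ge j
  have h5 : (19 / 10 : ℝ) ^ j ≤ sched.κ j := by
    have : (0 : ℝ) ≤ (19 / 10 : ℝ) ^ j := by positivity
    linarith
  gcongr

/-- for all `K`, eventually `K * (j+1)^2 ≤ κ j`. -/
theorem eventually_sq_le (K : ℝ) : ∀ᶠ j : ℕ in atTop, K * (j : ℝ) ^ 2 ≤ sched.κ j := by
  filter_upwards [tendsto_κ_div_sq.eventually_ge_atTop K, eventually_gt_atTop 0] with j h hj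
  have : (0 : ℝ) < (j : ℝ) ^ 2 := by
    have : (0 : ℝ) < j := by exact_mod_cast hj
    positivity
  rwa [le_div_iff₀ this] at h

theorem poly_aux1 (y x : ℝ) (hy : 20 < y) (hx : 0 ≤ x) :
    (y + 21) * x * 4 ≤ 100 * (x + 1) * y ^ 2 := by
  have h6 : y + 21 ≤ 3 * y ^ 2 := by nlinarith
  have h7 : (y + 21) * (x * 4) ≤ 3 * y ^ 2 * (x * 4) :=
    mul_le_mul_of_nonneg_right h6 (by linarith)
  have h8 : 0 ≤ x * y ^ 2 := by positivity
  have h9 : 0 ≤ y ^ 2 := by positivity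
  calc (y + 21) * x * 4 = (y + 21) * (x * 4) := by ring
    _ ≤ 3 * y ^ 2 * (x * 4) := h7
    _ = 12 * (x * y ^ 2) := by ring
    _ ≤ 100 * (x * y ^ 2) + 100 * y ^ 2 := by linarith
    _ = 100 * (x + 1) * y ^ 2 := by ring

theorem poly_aux2 (k j : ℕ) (h2 : k ≤ 10 ^ 6 * 2 ^ j) : k + 2 ^ (j + 1) + 2 ≤ 2 ^ (j + 21) := by
  have h3 : 1 ≤ 2 ^ j := Nat.one_le_two_pow
  have h4 : 2 ^ (j + 21) = 2097152 * 2 ^ j := by
    rw [pow_add, mul_comm]; norm_num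
  have h5 : (10 : ℕ) ^ 6 = 1000000 := by norm_num
  rw [h4, pow_succ 2 j]
  rw [h5] at h2
  generalize (2 : ℕ) ^ j = x at *
  omega

theorem poly_aux3 (k j c : ℕ) (h2 : k ≤ 10 ^ 6 * 2 ^ j) (hj : 20 < j)
    (h : 100 * ((c : ℝ) + 1) * (j : ℝ) ^ 2 ≤ k) : (k + 2 ^ (j + 1) + 2) ^ c ≤ 2 ^ (k / 4) := by
  have h1 := poly_aux2 k j h2
  have h4 : (j + 21) * c ≤ k / 4 := by
    rw [Nat.le_div_iff_mul_le (by norm_num)]
    have h5 : (((j + 21) * c * 4 : ℕ) : ℝ) ≤ k := by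
      refine le_trans ?_ h
      have := poly_aux1 (j : ℝ) (c : ℝ) (by exact_mod_cast hj) (Nat.cast_nonneg c)
      push_cast
      exact this
    exact_mod_cast h5
  calc (k + 2 ^ (j + 1) + 2) ^ c ≤ (2 ^ (j + 21)) ^ c := Nat.pow_le_pow_left h1 c
    _ = 2 ^ ((j + 21) * c) := by rw [pow_mul]
    _ ≤ 2 ^ (k / 4) := Nat.pow_le_pow_right (by norm_num) h4

theorem eventually_poly (c : ℕ) :
    ∀ᶠ j : ℕ in atTop, (sched.κ j + 2 ^ (j + 1) + 2) ^ c ≤ 2 ^ (sched.κ j / 4) := by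
  filter_upwards [eventually_sq_le (100 * ((c : ℝ) + 1)), eventually_gt_atTop 20] with j h hj
  exact poly_aux3 _ j c (sched_κ_le j) hj h

/-- the `κ` increase beats the threshold -/
theorem heavy_num (j : ℕ) {th : ℝ} (hth : th = (2 : ℝ) ^ (-(19 / 10 * (sched.κ j : ℝ)))) :
    (2 ^ sched.κ (j + 1) : ℝ)⁻¹ * 2 / th ≤ 1 / 20 := by
  subst hth
  have h1 := sched_κ_succ_real j
  have h2 := sched_lam_le_real j
  have h3 : (10 : ℝ) ^ 6 ≤ sched.κ j := by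
    have := sched_κ_ge_linear j
    have hj : (0 : ℝ) ≤ j := Nat.cast_nonneg j
    nlinarith
  rw [← Real.rpow_natCast 2 (sched.κ (j + 1)), ← Real.rpow_neg (by norm_num), div_eq_mul_inv,
    ← Real.rpow_neg (by norm_num), neg_neg]
  calc (2 : ℝ) ^ (-(sched.κ (j + 1) : ℝ)) * 2 * 2 ^ (19 / 10 * (sched.κ j : ℝ))
      = (2 : ℝ) ^ (-(sched.κ (j + 1) : ℝ) + 1 + 19 / 10 * (sched.κ j : ℝ)) := by
        rw [Real.rpow_add (by norm_num), Real.rpow_add (by norm_num), Real.rpow_one]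
    _ ≤ (2 : ℝ) ^ (-(5 : ℝ)) := by
        apply Real.rpow_le_rpow_of_exponent_le (by norm_num)
        linarith
    _ ≤ 1 / 20 := by
        rw [Real.rpow_neg (by norm_num)]
        norm_num

theorem eventually_start {p : ℕ → Prop} (h : ∀ᶠ j : ℕ in atTop, p j) :
    ∀ᶠ σ : ℕ in atTop, ∀ j, js σ ≤ j → p j := by
  obtain ⟨N, hN⟩ := eventually_atTop.1 h
  filter_upwards [eventually_ge_atTop N] with σ hσ j hj
  exact hN j (by have := le_js σ; omega)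

/-- `1000 * Jlen σ ≤ κ (js σ)` -/
theorem thousand_Jlen_le (σ : ℕ) : 1000 * Jlen σ ≤ sched.κ (js σ) := by
  cases σ with
  | zero =>
    rw [js_zero, sched_κ_zero]
    unfold Jlen; norm_num
  | succ σ =>
    have h1 := Jlen_le_js σ
    have h2 := sched_κ_ge_linear (js (σ + 1))
    have h3 : (10 : ℝ) ^ 6 * (1 + 9 / 10 * js (σ + 1)) ≥ 8000 * js (σ + 1) := by
      have : (0 : ℝ) ≤ js (σ + 1) := Nat.cast_nonneg _
      nlinarith
    have h4 : ((8000 * js (σ + 1) : ℕ) : ℝ) ≤ sched.κ (js (σ + 1)) := by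
      push_cast; linarith
    have h5 : 8000 * js (σ + 1) ≤ sched.κ (js (σ + 1)) := by exact_mod_cast h4
    omega

/-- `lam` is large in a late stretch -/
theorem eventually_lam (K : ℝ) : ∀ᶠ σ : ℕ in atTop, ∀ j, js σ ≤ j → j < js σ + Jlen σ →
    K * j ≤ sched.lam j := by
  have h := eventually_start (eventually_sq_le (8 * (|K| + 1)))
  filter_upwards [h, eventually_gt_atTop 0] with σ hσ h0 j hj hj'
  obtain ⟨σ, rfl⟩ := Nat.exists_eq_succ_of_ne_zero (Nat.pos_iff_ne_zero.1 h0)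
  obtain ⟨i, rfl⟩ := Nat.exists_eq_add_of_le hj
  have hi : i < Jlen (σ + 1) := by simpa using hj'
  have h1 := hσ _ hj
  have hJ : (0 : ℝ) < Jlen (σ + 1) := by exact_mod_cast Jlen_pos _
  have h2 : (sched.κ (js (σ + 1) + i) : ℝ) / Jlen (σ + 1) - 1 ≤ sched.lam (js (σ + 1) + i) := by
    rw [sched_lam_stretch hi]
    have := Nat.lt_floor_add_one ((sched.κ (js (σ + 1) + i) : ℝ) / Jlen (σ + 1))
    rw [Nat.floor_div_natCast, Nat.floor_natCast] at this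
    linarith
  refine le_trans ?_ h2
  have h3 : (Jlen (σ + 1) : ℝ) ≤ 8 * js (σ + 1) := by exact_mod_cast Jlen_le_js σ
  have h4 : (js (σ + 1) : ℝ) ≤ ((js (σ + 1) + i : ℕ) : ℝ) := by exact_mod_cast hj
  have h5 : (1 : ℝ) ≤ ((js (σ + 1) + i : ℕ) : ℝ) := by
    have := le_js (σ + 1)
    exact_mod_cast (by omega : 1 ≤ js (σ + 1) + i)
  generalize hjj : ((js (σ + 1) + i : ℕ) : ℝ) = y at *
  have h6 : (|K| + 1) * y ≤ (sched.κ (js (σ + 1) + i) : ℝ) / Jlen (σ + 1) := by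
    rw [le_div_iff₀ hJ]
    refine le_trans ?_ h1
    have h7 : (Jlen (σ + 1) : ℝ) ≤ 8 * y := by linarith
    have h8 : (0 : ℝ) ≤ (|K| + 1) * y := by positivity
    calc (|K| + 1) * y * Jlen (σ + 1) ≤ (|K| + 1) * y * (8 * y) :=
          mul_le_mul_of_nonneg_left h7 h8
      _ = 8 * (|K| + 1) * y ^ 2 := by ring
  have h9 : K * y ≤ |K| * y := mul_le_mul_of_nonneg_right (le_abs_self K) (by linarith)
  linarith

theorem exp_num {j lam : ℕ} (h : 2 * (j : ℝ) + 20 ≤ lam) :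
    (2 : ℝ) ^ (j + 5) * Real.exp (-(lam * Real.log 2 / 2)) ≤ 1 / 20 := by
  have h1 : Real.exp (-(lam * Real.log 2 / 2)) = (2 : ℝ) ^ (-(lam / 2 : ℝ)) := by
    rw [Real.rpow_def_of_pos (by norm_num)]
    congr 1; ring
  rw [h1, ← Real.rpow_natCast 2 (j + 5), ← Real.rpow_add (by norm_num)]
  calc (2 : ℝ) ^ (((j + 5 : ℕ) : ℝ) + -(lam / 2 : ℝ)) ≤ (2 : ℝ) ^ (-(5 : ℝ)) := by
        apply Real.rpow_le_rpow_of_exponent_le (by norm_num)
        push_cast; linarith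
    _ ≤ 1 / 20 := by
        rw [Real.rpow_neg (by norm_num)]
        norm_num

theorem eventually_C1 (C : ℝ) (hC : 0 < C) : ∀ᶠ σ : ℕ in atTop,
    (C / ((1 / 10) * (1 / 2) ^ (σ + 1))) ^ 2 ≤ 2 ^ js σ := by
  obtain ⟨K, hK⟩ := exists_nat_ge (10 * C)
  have hK1 : (10 * C) ≤ 2 ^ K := hK.trans (by exact_mod_cast (Nat.lt_two_pow_self (n := K)).le)
  filter_upwards [eventually_ge_atTop (K + 1)] with σ hσ
  have h1 : C / ((1 / 10) * (1 / 2) ^ (σ + 1)) = 10 * C * 2 ^ (σ + 1) := by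
    rw [one_div_pow]
    field_simp
  rw [h1]
  have h2 : 10 * C * 2 ^ (σ + 1) ≤ 2 ^ (2 * σ) := by
    calc 10 * C * 2 ^ (σ + 1) ≤ 2 ^ K * 2 ^ (σ + 1) := by gcongr
      _ = 2 ^ (K + (σ + 1)) := by rw [← pow_add]
      _ ≤ 2 ^ (2 * σ) := pow_le_pow_right₀ (by norm_num) (by omega)
  calc (10 * C * 2 ^ (σ + 1)) ^ 2 ≤ (2 ^ (2 * σ)) ^ 2 := by
        apply pow_le_pow_left₀ (by positivity) h2
    _ = 2 ^ (4 * σ) := by rw [← pow_mul]; congr 1; ring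
    _ ≤ 2 ^ js σ := by
        apply pow_le_pow_right₀ (by norm_num)
        obtain ⟨σ, rfl⟩ := Nat.exists_eq_succ_of_ne_zero (by omega : σ ≠ 0)
        have h3 := eight_pow_le_js σ
        have h4 : 4 * (σ + 1) ≤ 8 ^ (σ + 1) := by
          have h5 : σ + 1 ≤ 2 ^ (σ + 1) := (Nat.lt_two_pow_self (n := σ + 1)).le
          have h6 : 4 ≤ 4 ^ (σ + 1) := by
            calc 4 = 4 ^ 1 := by norm_num
              _ ≤ 4 ^ (σ + 1) := Nat.pow_le_pow_right (by norm_num) (by omega)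
          calc 4 * (σ + 1) ≤ 4 ^ (σ + 1) * 2 ^ (σ + 1) := Nat.mul_le_mul h6 h5
            _ = 8 ^ (σ + 1) := by rw [← mul_pow]; norm_num
        exact h4.trans h3

theorem eventually_C2 (C : ℝ) (hC : 0 < C) : ∀ᶠ σ : ℕ in atTop,
    C / ((1 / 10) * ((1 / 2) ^ (σ + 1)) ^ 2) ≤ (Jlen σ : ℝ) / 2 := by
  obtain ⟨K, hK⟩ := exists_nat_ge (C)
  have hK1 : C ≤ 2 ^ K := hK.trans (by exact_mod_cast (Nat.lt_two_pow_self (n := K)).le)
  filter_upwards [eventually_ge_atTop K] with σ hσ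
  have h1 : C / ((1 / 10) * ((1 / 2) ^ (σ + 1)) ^ 2) = 10 * C * 4 ^ (σ + 1) := by
    rw [← pow_mul, mul_comm (σ + 1) 2, pow_mul, one_div_pow]
    norm_num
    field_simp
    rw [← mul_pow]; norm_num
  rw [h1]
  have h2 : C ≤ 2 ^ σ := hK1.trans (pow_le_pow_right₀ (by norm_num) hσ)
  have h3 : (Jlen σ : ℝ) = 1000 * (2 ^ σ * 4 ^ σ) := by
    unfold Jlen; push_cast; rw [← mul_pow]; norm_num
  rw [h3, pow_succ]
  have h4 : (0 : ℝ) < 4 ^ σ := by positivity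
  have h5 : C * 4 ^ σ ≤ 2 ^ σ * 4 ^ σ := mul_le_mul_of_nonneg_right h2 h4.le
  have h6 : (0 : ℝ) < 2 ^ σ * 4 ^ σ := by positivity
  linarith

theorem rate_num {σ j : ℕ} (hj : j ≤ js σ + Jlen σ) :
    (1 / 2 : ℝ) ^ (σ + 1) * 2 ^ j ≤ sched.κ j := by
  have h := sched_κ_rate' hj
  have h2 : (0 : ℝ) < 2 ^ (σ + 1) := by positivity
  rw [one_div_pow, div_mul_eq_mul_div, one_mul, div_le_iff₀ h2]
  have h3 : (0 : ℝ) < 2 ^ j := by positivity
  linarith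

theorem four_mul_le (j : ℕ) : 4 * (j + 2) ≤ sched.κ j := by
  have h := sched_κ_ge_linear j
  have h2 : ((4 * (j + 2) : ℕ) : ℝ) ≤ sched.κ j := by
    refine le_trans ?_ h
    push_cast
    have : (0 : ℝ) ≤ j := Nat.cast_nonneg j
    nlinarith
  exact_mod_cast h2

theorem million_le (j : ℕ) : 10 ^ 6 ≤ sched.κ j := by
  have h := sched_κ_ge_linear j
  have h2 : ((10 ^ 6 : ℕ) : ℝ) ≤ sched.κ j := by
    refine le_trans ?_ h
    push_cast
    have : (0 : ℝ) ≤ j := Nat.cast_nonneg j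
    nlinarith
  exact_mod_cast h2

/-- natural-number form of `sched_κ_half` -/
theorem κ_js_mul_le {σ i : ℕ} (h : i ≤ Jlen σ) :
    sched.κ (js σ) * 2 ^ i ≤ 2 * sched.κ (js σ + i) := by
  have h1 := sched_κ_half h
  have h2 : ((sched.κ (js σ) * 2 ^ i : ℕ) : ℝ) ≤ ((2 * sched.κ (js σ + i) : ℕ) : ℝ) := by
    push_cast; linarith
  exact_mod_cast h2

/-- all the facts about late stretches, in eventual form -/
theorem eventually_stretch (C : ℝ) (hC : 0 < C) (N : ℕ) (c : ℕ → ℕ) :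
    ∀ᶠ σ : ℕ in atTop, ∀ j, js σ ≤ j → j < js σ + Jlen σ →
      (N ≤ j ∧ (sched.κ j + 2 ^ (j + 1) + 2) ^ (c N) ≤ 2 ^ (sched.κ j / 4) ∧
        (C / ((1 / 10) * (1 / 2) ^ (σ + 1))) ^ 2 ≤ 2 ^ j ∧
        C / ((1 / 10) * ((1 / 2) ^ (σ + 1)) ^ 2) ≤ (Jlen σ : ℝ) / 2 ∧
        (1 / 2 : ℝ) ^ (σ + 1) * 2 ^ j ≤ sched.κ j ∧
        (2 : ℝ) ^ (j + 5) * Real.exp (-(sched.lam j * Real.log 2 / 2)) ≤ 1 / 20 ∧
        (2 ^ sched.κ (j + 1) : ℝ)⁻¹ * 2 / (2 : ℝ) ^ (-(19 / 10 * (sched.κ j : ℝ))) ≤ 1 / 20 ∧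
        1000 * Jlen σ ≤ sched.κ (js σ)) := by
  filter_upwards [eventually_start (eventually_poly (c N)), eventually_C1 C hC,
    eventually_C2 C hC, eventually_lam 22, eventually_ge_atTop N, eventually_gt_atTop 0] with
    σ h1 h2 h3 h4 h5 h6 j hj hj'
  have hjσ := le_js σ
  refine ⟨by omega, h1 j hj, h2.trans (pow_le_pow_right₀ (by norm_num) hj), h3,
    rate_num (by omega), exp_num ?_, heavy_num j rfl, thousand_Jlen_le σ⟩
  have h7 := h4 j hj hj'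
  have h8 : (1 : ℝ) ≤ j := by exact_mod_cast (by omega : 1 ≤ j)
  linarith

theorem exists_stretch (C : ℝ) (hC : 0 < C) (N : ℕ) (c : ℕ → ℕ) :
    ∃ σ : ℕ, ∀ j, js σ ≤ j → j < js σ + Jlen σ →
      (N ≤ j ∧ (sched.κ j + 2 ^ (j + 1) + 2) ^ (c N) ≤ 2 ^ (sched.κ j / 4) ∧
        (C / ((1 / 10) * (1 / 2) ^ (σ + 1))) ^ 2 ≤ 2 ^ j ∧
        C / ((1 / 10) * ((1 / 2) ^ (σ + 1)) ^ 2) ≤ (Jlen σ : ℝ) / 2 ∧
        (1 / 2 : ℝ) ^ (σ + 1) * 2 ^ j ≤ sched.κ j ∧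
        (2 : ℝ) ^ (j + 5) * Real.exp (-(sched.lam j * Real.log 2 / 2)) ≤ 1 / 20 ∧
        (2 ^ sched.κ (j + 1) : ℝ)⁻¹ * 2 / (2 : ℝ) ^ (-(19 / 10 * (sched.κ j : ℝ))) ≤ 1 / 20 ∧
        1000 * Jlen σ ≤ sched.κ (js σ)) :=
  (eventually_stretch C hC N c).exists

end Vale.Agent.P109.A424
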