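import Mathlib
import Vale.Agent.P109.A424.Choice
import Vale.Agent.P109.A424.NumSched
import Vale.Agent.P109.A424.Num
import Vale.Agent.P109.A424.NearMass

/-!
# P109, block [A] (helper424): no predictable system has the constructed system as a factor
-/

open Finset MeasureTheory Set
open scoped ENNReal

namespace Vale.Agent.P109.A424

open H462 H462.Sched Ent

/-- **Non-predictability.** -/
theorem not_predictable {Fam : OV.Family (sched.W 0)} {c : ℕ → ℕ}
    (hmass : ∀ N B n, ∀ L ∈ Fam N B n, L Set.univ ≤ 1) {t : sched.Rels}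
    (horc : OracleProp Fam c t) (hlist : ∀ j, Sched.ListProp t j (1 / 100))
    {M : Type} [MeasurableSpace M] {ν : Measure M} [IsFiniteMeasure ν] {S : M → M}
    (hS : MeasurePreserving S ν ν) (P : Phased sched t ν S) : ¬ OV.Predictable Fam ν S := by
  classical
  intro hpred
  have hβ : Measurable (P.w 0) := measurable_to_countable' fun a => P.hw 0 a
  obtain ⟨α, hα, hαβ, N, C, hC, hmain⟩ := hpred (P.w 0) hβ (1 / 10 ^ 6) (by norm_num)
  have hε : ν.real {z | α z ≠ P.w 0 z} ≤ 1 / 10 ^ 6 := by
    rw [measureReal_def]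
    exact ENNReal.toReal_le_of_le_ofReal (by norm_num) hαβ
  obtain ⟨σ, hσ⟩ := exists_stretch C hC N c
  have hJpos := Jlen_pos σ
  have hρ0 : (0 : ℝ) < (1 / 2) ^ (σ + 1) := by positivity
  have hρ1 : ((1 : ℝ) / 2) ^ (σ + 1) ≤ 1 := pow_le_one₀ (by norm_num) (by norm_num)
  obtain ⟨Bad, hBad, hlev⟩ := hmain ((1 / 2) ^ (σ + 1)) (1 / 10) hρ0 hρ1 (by norm_num) (by norm_num)
  obtain ⟨-, -, -, hJ2, -, -, -, hκJ⟩ := hσ (js σ) le_rfl (by omega)
  -- simple levels
  set Sset : Finset ℕ := (Finset.range (Jlen σ)).filter fun i => js σ + i ∉ Bad with hSset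
  have hcard : Jlen σ ≤ 2 * Sset.card := by
    have h1 : Jlen σ ≤ Sset.card + Bad.card := by
      have h2 := Finset.card_filter_add_card_filter_not (s := Finset.range (Jlen σ))
        (fun i => js σ + i ∉ Bad)
      rw [card_range, ← hSset] at h2
      have h3 : ((Finset.range (Jlen σ)).filter fun i => ¬ (js σ + i ∉ Bad)).card ≤ Bad.card := by
        refine Finset.card_le_card_of_injOn (fun i => js σ + i) ?_ ?_
        · intro i hi
          have := (mem_filter.1 (Finset.mem_coe.1 hi)).2
          exact Finset.mem_coe.2 (not_not.1 this)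
        · intro a _ b _ hab
          exact Nat.add_left_cancel hab
      omega
    have h4 : (Bad.card : ℝ) ≤ (Jlen σ : ℝ) / 2 := hBad.trans hJ2
    have h5 : 2 * Bad.card ≤ Jlen σ := by
      have : (2 : ℝ) * Bad.card ≤ Jlen σ := by linarith
      exact_mod_cast this
    omega
  refine stretch_contradiction (J := Jlen σ) (κ0 := sched.κ (js σ)) hJpos hκJ
    (fun i => Hc (P.mi (js σ) α i)) (fun i => Hc_nonneg _ (P.mi_nonneg _ _ _))
    (base_entropy P hS hα (js σ) hε (hlist _))
    (fun i _ => P.Hc_succ_le hS hα (js σ) i) (fun i => sched.κ (js σ + i))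
    (fun i => sched.lam (js σ + i)) (fun i hi => sched_κ_half hi.le)
    (fun i hi => sched_lam_stretch hi) Sset (filter_subset _ _) ?_ hcard
  intro i hi
  rw [hSset, mem_filter, Finset.mem_range] at hi
  obtain ⟨hiJ, hiB⟩ := hi
  obtain ⟨hN, hcN, hthr, -, hρκ, hn1, hn2, -⟩ := hσ (js σ + i) (by omega) (by omega)
  obtain ⟨L, hL, G, hG, hG1, hG2⟩ := hlev (js σ + i) hthr hiB (sched.κ (js σ + i)) hρκ
  have hZ := hG1 (P.Z (js σ + i + 1) ∩ P.M0) ((P.measurableSet_Z _).inter P.hM0)
    (P.disjoint_preimages (js σ + i + 1))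
  have hnn : ∑ v, ∑ w, (if nr t (js σ) i w v then 0 else P.mi (js σ) α i w v) ≤ 1 / 50 := by
    rw [P.sum_not hS hα (js σ) i (nr t (js σ) i)]
    exact near_mass P hS hα (js σ) i hε
  have hn2' : (2 ^ sched.κ (js σ + i + 1) : ℝ)⁻¹ * 2 / thr sched (js σ + i) ≤ 1 / 20 := by
    unfold thr
    rw [neg_mul]
    exact hn2
  exact simple_level horc hS P hα hiJ hN hcN hnn hL (hmass _ _ _ L hL) hG hZ hG2 hn1 hn2'

/-- **Block [A].** For every small family of laws there are relations such that no system which is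
predictable by the family carries the phases and words of the constructed tower. -/
theorem exists_not_predictable (Fam : OV.Family (sched.W 0)) (hF : OV.SmallFamily Fam) :
    ∃ t : sched.Rels, ∀ {M : Type} [MeasurableSpace M] {ν : Measure M} [IsFiniteMeasure ν]
      {S : M → M}, MeasurePreserving S ν ν → Phased sched t ν S → ¬ OV.Predictable Fam ν S := by
  obtain ⟨hmass, hc⟩ := hF
  choose c hc using hc
  obtain ⟨t, horc, hlist⟩ := exists_choice (Fam := Fam) (c := c) hc
  exact ⟨t, fun hS P => not_predictable hmass horc hlist hS P⟩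

end Vale.Agent.P109.A424
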