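import Vale.Agent.P109.A424.Phased
import Vale.Agent.P109.H787.Bin
import Vale.Agent.P109.H787.SysLemmas

/-!
# P109, block [A], file OfSys (helper114): a factor map to the system over the tower gives a
`Phased` structure.
-/

open MeasureTheory Set
open scoped ENNReal

namespace Vale.Agent.P109.A424

open H462 H462.Sched

variable {s : Sched} {t : s.Rels}

/-- Pull back of phases and words under a factor map. -/
noncomputable def Phased.ofSys (𝒮 : GTower.Sys (s.tower t).toG) {M : Type} [MeasurableSpace M]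
    {ν : Measure M} {S : M → M} {π : M → 𝒮.X} {M₀ : Set M} (hπ : MeasurePreserving π ν 𝒮.μ)
    (hM : MeasurableSet M₀) (hnull : ν M₀ᶜ = 0) (hinv : S ⁻¹' M₀ = M₀)
    (hfac : ∀ y ∈ M₀, π (S y) = 𝒮.T (π y)) : Phased s t ν S where
  M0 := M₀
  τ j z := 𝒮.ph j (π z)
  w j z := 𝒮.wd j (π z)
  hM0 := hM
  hM0null := hnull
  hM0inv z hz := by
    have : z ∈ S ⁻¹' M₀ := by rw [hinv]; exact hz
    exact this
  hτ j a := hπ.measurable (𝒮.measurableSet_ph j a)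
  hw j a := hπ.measurable (𝒮.meas_wd j a)
  τ_lt j z := by
    have := 𝒮.ph_lt j (π z)
    rwa [Tower.toG_H] at this
  step j z hz h := by
    rw [hfac z hz]
    have h' : 𝒮.ph j (π z) + 1 < (s.tower t).toG.H j := by rw [Tower.toG_H]; exact h
    exact ⟨𝒮.ph_T j _ h', 𝒮.wd_T j _ h'⟩
  lo j z h := by
    have h1 := 𝒮.ph_mod j (π z)
    have h2 := 𝒮.wd_part j (π z)
    have h3 := 𝒮.ph_lt (j + 1) (π z)
    rw [Tower.toG_H] at h3
    rw [Tower.toG_H, Nat.mod_eq_of_lt h] at h1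
    have h4 := (s.tower t).toG_part j (𝒮.wd (j + 1) (π z)) (𝒮.ph (j + 1) (π z)) h3
    rw [if_pos h] at h4
    exact ⟨h1.symm, h2.trans h4⟩
  hi j z h := by
    have h1 := 𝒮.ph_mod j (π z)
    have h2 := 𝒮.wd_part j (π z)
    have h3 := 𝒮.ph_lt (j + 1) (π z)
    rw [Tower.toG_H] at h3
    have h5 : 2 ^ (j + 1) = 2 ^ j + 2 ^ j := by rw [pow_succ]; ring
    rw [Tower.toG_H, Nat.mod_eq_sub_mod h, Nat.mod_eq_of_lt (by omega)] at h1
    have h4 := (s.tower t).toG_part j (𝒮.wd (j + 1) (π z)) (𝒮.ph (j + 1) (π z)) h3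
    rw [if_neg (by omega)] at h4
    exact ⟨h1.symm, h2.trans h4⟩
  law j i v hi := by
    have h2 : MeasurableSet {x | 𝒮.ph j x = i ∧ 𝒮.wd j x = v} :=
      (𝒮.measurableSet_ph j i).inter (𝒮.meas_wd j v)
    have h3 : Fintype.card ((s.tower t).toG.W j) = 2 ^ s.κ j := by
      show Fintype.card (Fin (2 ^ s.κ j)) = _
      exact Fintype.card_fin _
    have h4 := (hπ.measure_preimage h2.nullMeasurableSet).trans
      (𝒮.law j i v (by rw [Tower.toG_H]; exact hi))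
    rw [h3, Tower.toG_H] at h4
    refine Eq.trans (b := ((2 ^ j * 2 ^ s.κ j : ℕ) : ℝ≥0∞)⁻¹) h4 ?_
    push_cast
    rfl

theorem Phased.ofSys_w (𝒮 : GTower.Sys (s.tower t).toG) {M : Type} [MeasurableSpace M]
    {ν : Measure M} {S : M → M} {π : M → 𝒮.X} {M₀ : Set M} (hπ : MeasurePreserving π ν 𝒮.μ)
    (hM : MeasurableSet M₀) (hnull : ν M₀ᶜ = 0) (hinv : S ⁻¹' M₀ = M₀)
    (hfac : ∀ y ∈ M₀, π (S y) = 𝒮.T (π y)) (j : ℕ) (z : M) :
    (Phased.ofSys 𝒮 hπ hM hnull hinv hfac).w j z = 𝒮.wd j (π z) := rfl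

theorem Phased.ofSys_τ (𝒮 : GTower.Sys (s.tower t).toG) {M : Type} [MeasurableSpace M]
    {ν : Measure M} {S : M → M} {π : M → 𝒮.X} {M₀ : Set M} (hπ : MeasurePreserving π ν 𝒮.μ)
    (hM : MeasurableSet M₀) (hnull : ν M₀ᶜ = 0) (hinv : S ⁻¹' M₀ = M₀)
    (hfac : ∀ y ∈ M₀, π (S y) = 𝒮.T (π y)) (j : ℕ) (z : M) :
    (Phased.ofSys 𝒮 hπ hM hnull hinv hfac).τ j z = 𝒮.ph j (π z) := rfl

/-- Existence form. -/
theorem exists_phased (𝒮 : GTower.Sys (s.tower t).toG) {M : Type} [MeasurableSpace M]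
    {ν : Measure M} {S : M → M} (h : ∃ (π : M → 𝒮.X) (M₀ : Set M), MeasurePreserving π ν 𝒮.μ ∧
      MeasurableSet M₀ ∧ ν M₀ᶜ = 0 ∧ S ⁻¹' M₀ = M₀ ∧ ∀ y ∈ M₀, π (S y) = 𝒮.T (π y)) :
    Nonempty (Phased s t ν S) := by
  obtain ⟨π, M₀, hπ, hM, hnull, hinv, hfac⟩ := h
  exact ⟨Phased.ofSys 𝒮 hπ hM hnull hinv hfac⟩

namespace Phased

variable {M : Type} [MeasurableSpace M] {ν : Measure M} {S : M → M} (P : Phased s t ν S)

/-- Phases of the iterates of a point of `M0`, before the end of the block. -/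
theorem τ_iterate_lt (j : ℕ) {z : M} (hz : z ∈ P.M0) {i i' : ℕ} (hi : i ≤ i')
    (h : P.τ j (S^[i] z) + (i' - i) < 2 ^ j) :
    P.τ j (S^[i'] z) = P.τ j (S^[i] z) + (i' - i) := by
  have h1 := (P.iter_step j (P.iter_mem hz i) (i' - i) h).1
  rwa [← Function.iterate_add_apply, Nat.sub_add_cancel hi] at h1

/-- Before the end of the block the phase goes back in steps of one; in general, returns of an
orbit to `Z j` are at distance at least `2 ^ j`. -/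
theorem eq_of_iterate_mem_Z (j : ℕ) {z : M} {i i' : ℕ} (hi : i < 2 ^ j) (hi' : i' < 2 ^ j)
    (h : S^[i] z ∈ P.Z j ∩ P.M0) (h' : S^[i'] z ∈ P.Z j ∩ P.M0) : i = i' := by
  have key : ∀ a b : ℕ, a < b → b < 2 ^ j → S^[a] z ∈ P.Z j ∩ P.M0 → S^[b] z ∈ P.Z j → False := by
    intro a b hab hb ha hb'
    have h0 : P.τ j (S^[a] z) = 0 := ha.1
    have h1 := (P.iter_step j ha.2 (b - a) (by rw [h0]; omega)).1
    rw [← Function.iterate_add_apply, Nat.sub_add_cancel hab.le, h0] at h1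
    have h2 : P.τ j (S^[b] z) = 0 := hb'
    omega
  rcases lt_trichotomy i i' with hlt | heq | hgt
  · exact (key i i' hlt hi' h h'.1).elim
  · exact heq
  · exact (key i' i hgt hi h' h.1).elim

/-- The shape needed for `OV.Predictable`. -/
theorem disjoint_preimage (j : ℕ) {i i' : ℕ} (hi : i < 2 ^ j) (hi' : i' < 2 ^ j) (h : i ≠ i') :
    Disjoint (S^[i] ⁻¹' (P.Z j ∩ P.M0)) (S^[i'] ⁻¹' (P.Z j ∩ P.M0)) := by
  rw [Set.disjoint_left]
  intro z hz hz'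
  exact h (P.eq_of_iterate_mem_Z j hi hi' hz hz')

theorem disjoint_preimage_of_subset (j : ℕ) {Y : Set M} (hY : Y ⊆ P.Z j ∩ P.M0) {i i' : ℕ}
    (hi : i < 2 ^ j) (hi' : i' < 2 ^ j) (h : i ≠ i') :
    Disjoint (S^[i] ⁻¹' Y) (S^[i'] ⁻¹' Y) :=
  (P.disjoint_preimage j hi hi' h).mono (preimage_mono hY) (preimage_mono hY)

theorem measurableSet_Z_inter (j : ℕ) : MeasurableSet (P.Z j ∩ P.M0) :=
  (P.measurableSet_Z j).inter P.hM0

theorem measure_Z_inter_M0 (j : ℕ) {E : Set M} :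
    ν (P.Z j ∩ P.M0 ∩ E) = ν (P.Z j ∩ E) := by
  have h0 : P.M0 =ᵐ[ν] Set.univ := by
    rw [ae_eq_univ]; exact P.hM0null
  have h1 : (P.Z j ∩ P.M0 ∩ E : Set M) =ᵐ[ν] (P.Z j ∩ univ ∩ E : Set M) :=
    ((Filter.EventuallyEq.refl (ae ν) (P.Z j)).inter h0).inter (Filter.EventuallyEq.refl _ _)
  rw [measure_congr h1, inter_univ]

end Phased

end Vale.Agent.P109.A424
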